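import Mathlib
import Vale.Agent.P347.Zero.Ode

/-!
# P136: linear systems on an interval
-/

open MeasureTheory Set Filter
open scoped Topology

namespace Vale.Agent.P136

noncomputable section

/-- Gronwall's inequality for a nonnegative energy. -/
theorem gronwall_le {N N' : ℝ → ℝ} {K p q : ℝ} (hd : ∀ t ∈ Icc p q, HasDerivAt N (N' t) t)
    (hb : ∀ t ∈ Icc p q, N' t ≤ K * N t) {t : ℝ} (ht : t ∈ Icc p q) :
    N t ≤ N p * Real.exp (K * (t - p)) := by
  have hg : ∀ s ∈ Icc p q, HasDerivAt (fun s => N s * Real.exp (-K * (s - p)))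
      ((N' s - K * N s) * Real.exp (-K * (s - p))) s := by
    intro s hs
    have h := (((hasDerivAt_id' s).sub_const p).const_mul (-K)).exp
    exact ((hd s hs).mul h).congr_deriv (by ring)
  have hanti : AntitoneOn (fun s => N s * Real.exp (-K * (s - p))) (Icc p q) := by
    refine antitoneOn_of_deriv_nonpos (convex_Icc p q)
      (fun s hs => (hg s hs).continuousAt.continuousWithinAt)
      (fun s hs => (hg s (interior_subset hs)).differentiableAt.differentiableWithinAt) fun s hs => ?_
    rw [(hg s (interior_subset hs)).deriv]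
    exact mul_nonpos_of_nonpos_of_nonneg (by linarith [hb s (interior_subset hs)]) (Real.exp_pos _).le
  have h := hanti (left_mem_Icc.2 (ht.1.trans ht.2)) ht ht.1
  simp only [sub_self, mul_zero, Real.exp_zero, mul_one] at h
  calc N t = N t * Real.exp (-K * (t - p)) * Real.exp (K * (t - p)) := by
        rw [mul_assoc, ← Real.exp_add]; simp
    _ ≤ _ := mul_le_mul_of_nonneg_right h (Real.exp_pos _).le

/-- A linear system on an interval has a solution which is `C¹` on the line. -/
theorem exists_linear_solution {n : ℕ} {p q : ℝ} (hpq : p ≤ q) {M : ℝ → Fin n → Fin n → ℂ}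
    (hM : ∀ i j, ContinuousOn (fun t => M t i j) (Icc p q)) (x₀ : Fin n → ℂ) :
    ∃ Y Y' : Fin n → ℝ → ℂ, (∀ i t, HasDerivAt (Y i) (Y' i t) t) ∧ (∀ i, Continuous (Y' i)) ∧
      (∀ i, Y i p = x₀ i) ∧ ∀ t ∈ Icc p q, ∀ i, Y' i t = ∑ j, M t i j * Y j t := by
  let L : ℝ → ((Fin n → ℂ) →L[ℝ] (Fin n → ℂ)) := fun t =>
    ContinuousLinearMap.pi fun i => ∑ j, M t i j • ContinuousLinearMap.proj (R := ℝ) (φ := fun _ => ℂ) j
  have hL : ContinuousOn L (Icc p q) := by
    refine continuousOn_clm_apply.2 fun y => continuousOn_pi.2 fun i => ?_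
    simp only [L, ContinuousLinearMap.pi_apply, ContinuousLinearMap.coe_sum', Finset.sum_apply,
      ContinuousLinearMap.smul_apply, ContinuousLinearMap.proj_apply, smul_eq_mul]
    exact continuousOn_finsetSum _ fun j _ => (hM i j).mul continuousOn_const
  obtain ⟨B, hB⟩ := isCompact_Icc.exists_bound_of_continuousOn hL
  have hreg : P347.Zero.FieldReg (fun t y => L t y) p q := by
    refine ⟨?_, fun t _ => (L t).differentiable, ?_, max 1 B, le_max_left _ _, fun t ht y => ?_⟩
    · exact (hL.comp continuousOn_fst fun z hz => hz.1).clm_apply continuousOn_snd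
    · simp only [ContinuousLinearMap.fderiv]
      exact hL.comp continuousOn_fst fun z hz => hz.1
    · refine ((L t).le_opNorm y).trans ?_
      exact mul_le_mul ((hB t ht).trans (le_max_right _ _)) (by linarith [norm_nonneg y])
        (norm_nonneg _) (le_trans zero_le_one (le_max_left _ _))
  obtain ⟨γ, hγ, hγ0⟩ := hreg.exists_traj (left_mem_Icc.2 hpq) x₀
  let c : ℝ → ℝ := fun t => max p (min q t)
  have hcmem : ∀ t, c t ∈ Icc p q := fun t => ⟨le_max_left _ _, max_le hpq (min_le_left _ _)⟩
  let g : Fin n → ℝ → ℂ := fun i t => (L (c t) (γ (c t))) i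
  have hcc : Continuous c := continuous_const.max (continuous_const.min continuous_id)
  have hg : ∀ i, Continuous (g i) := fun i =>
    (continuous_apply i).comp ((hL.comp_continuous hcc hcmem).clm_apply
      ((P347.Zero.IsTraj.continuousOn hγ).comp_continuous hcc hcmem))
  let Y : Fin n → ℝ → ℂ := fun i t => x₀ i + ∫ s in p..t, g i s
  have hY : ∀ i t, HasDerivAt (Y i) (g i t) t := fun i t =>
    ((hg i).integral_hasStrictDerivAt p t).hasDerivAt.const_add _
  have heq : ∀ t ∈ Icc p q, ∀ i, Y i t = γ t i := by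
    intro t ht i
    have hi : ∫ s in p..t, g i s = γ t i - γ p i := by
      refine intervalIntegral.integral_eq_sub_of_hasDerivAt_of_le (f := fun s => γ s i) ht.1 ?_ (fun s hs => ?_)
        ((hg i).intervalIntegrable p t)
      · exact ((continuous_apply i).comp_continuousOn (P347.Zero.IsTraj.continuousOn hγ)).mono
          (Icc_subset_Icc le_rfl ht.2)
      · have hs' : s ∈ Ioo p q := ⟨hs.1, hs.2.trans_le ht.2⟩
        have hcs : c s = s := by simp [c, min_eq_right hs'.2.le, max_eq_right hs'.1.le]
        simp only [g, hcs]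
        exact hasDerivAt_pi.1 (P347.Zero.hasDerivAt_of_within hs' (hγ s (Ioo_subset_Icc_self hs'))) i
    simp only [Y, hi, hγ0]
    ring
  refine ⟨Y, g, hY, hg, fun i => by simp [Y], fun t ht i => ?_⟩
  have hct : c t = t := by simp [c, min_eq_right ht.2, max_eq_right ht.1]
  simp only [g, hct, heq t ht]
  simp [L]

end

end Vale.Agent.P136
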