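import Mathlib

/-!
# P136: the variational form of the displacement-to-traction map
-/

open MeasureTheory

namespace Vale.Agent.P136

noncomputable section

/-- Three-space with its Lebesgue measure. -/
abbrev Space : Type := Fin 3 → ℝ

/-- The partial derivative of the `i`-th component in the direction of the `j`-th coordinate. -/
def pd (u : Space → Space) (x : Space) (i j : Fin 3) : ℝ := fderiv ℝ u x (Pi.single j 1) i

/-- The elastic energy density `λ (div u)² + 2 μ e(u):e(u)`. -/
def density (lam mu : Space → ℝ) (u : Space → Space) (x : Space) : ℝ :=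
  lam x * (∑ i, pd u x i i) ^ 2 + 2 * mu x * ∑ i, ∑ j, ((pd u x i j + pd u x j i) / 2) ^ 2

/-- The elastic energy of a displacement in `Ω`. -/
def energy (Ω : Set Space) (lam mu : Space → ℝ) (u : Space → Space) : ℝ :=
  ∫ x in Ω, density lam mu u x

/-- The quadratic form of the displacement-to-traction map: the least energy among the `C¹`
displacements which equal `f` on the boundary. -/
def minEnergy (Ω : Set Space) (lam mu : Space → ℝ) (f : Space → Space) : ℝ :=
  sInf {E | ∃ u : Space → Space, ContDiff ℝ 1 u ∧ (∀ x ∈ frontier Ω, u x = f x) ∧ E = energy Ω lam mu u}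

/-- Two pairs of moduli have the same displacement-to-traction quadratic form. -/
def SameMap (Ω : Set Space) (lam₁ mu₁ lam₂ mu₂ : Space → ℝ) : Prop :=
  ∀ f : Space → Space, ContDiff ℝ 1 f → minEnergy Ω lam₁ mu₁ f = minEnergy Ω lam₂ mu₂ f

end

end Vale.Agent.P136
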