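import Mathlib
import Vale.Agent.P136.Defs

/-!
# P136: a field vanishing on the boundary has divergence of integral zero
-/

open MeasureTheory Set Filter
open scoped Topology

namespace Vale.Agent.P136

noncomputable section

variable {G : Type*} [NormedAddCommGroup G] [NormedSpace ℝ G]

/-- One variable: the derivative of a function vanishing on the frontier of a bounded open set has
integral zero over it. -/
theorem integral_deriv_eq_zero [CompleteSpace G] {U : Set ℝ} (hU : IsOpen U) {R : ℝ}
    (hR : U ⊆ Ioo (-R) R) {g g' : ℝ → G} (hg : ∀ t, HasDerivAt g (g' t) t) (hg' : Continuous g')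
    (h0 : ∀ t ∈ frontier U, g t = 0) : ∫ t in U, g' t = 0 := by
  rcases U.eq_empty_or_nonempty with rfl | ⟨t₀, ht₀⟩
  · simp
  have hR0 : -R ≤ R := ((hR ht₀).1.trans (hR ht₀).2).le
  have hgc : Continuous g := continuous_iff_continuousAt.2 fun t => (hg t).continuousAt
  set S := {t | t ∈ frontier U ∧ g' t ≠ 0} with hS
  have hScount : S.Countable := by
    have hdisc : ∀ t ∈ S, ∃ V ∈ 𝓝 t, V ∩ S = {t} := by
      intro t ht
      have hne := (hg t).eventually_ne (c := 0) ht.2
      rw [eventually_nhdsWithin_iff] at hne
      refine ⟨{z | z ≠ t → g z ≠ 0}, hne, ?_⟩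
      ext z
      simp only [mem_inter_iff, mem_setOf_eq, mem_singleton_iff]
      refine ⟨fun ⟨h1, h2⟩ => by_contra fun h => h1 h (h0 z h2.1), fun h => ?_⟩
      subst h; exact ⟨fun h => absurd rfl h, ht⟩
    have : DiscreteTopology S := by
      rw [discreteTopology_subtype_iff']
      intro t ht
      obtain ⟨V, hV, he⟩ := hdisc t ht
      obtain ⟨W, hWV, hWo, hWt⟩ := mem_nhds_iff.1 hV
      refine ⟨W, hWo, subset_antisymm ?_ ?_⟩
      · exact (inter_subset_inter_left S hWV).trans he.subset
      · rintro z rfl; exact ⟨hWt, ht⟩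
    exact Set.countable_coe_iff.1 countable_of_Lindelof_of_discrete
  have hout : ∀ t, t ∉ Ioo (-R) R → U.indicator g t = 0 := fun t ht =>
    indicator_of_notMem (fun h => ht (hR h)) g
  have hcont : Continuous (U.indicator g) :=
    continuous_indicator (fun t ht => h0 t ht) hgc.continuousOn
  have hi : IntervalIntegrable (U.indicator g') volume (-R) R := by
    rw [intervalIntegrable_iff_integrableOn_Ioc_of_le hR0]
    exact ((hg'.integrableOn_Icc (a := -R) (b := R)).mono_set Ioc_subset_Icc_self).indicator
      hU.measurableSet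
  have hd : ∀ t ∈ Ioo (-R) R \ S, HasDerivAt (U.indicator g) (U.indicator g' t) t := by
    rintro t ⟨-, hts⟩
    by_cases htU : t ∈ U
    · rw [indicator_of_mem htU]
      refine (hg t).congr_of_eventuallyEq ?_
      filter_upwards [hU.mem_nhds htU] with z hz using indicator_of_mem hz g
    rw [indicator_of_notMem htU]
    by_cases htc : t ∈ closure U
    · have hfr : t ∈ frontier U := ⟨htc, fun h => htU (interior_subset h)⟩
      have hz : g' t = 0 := by_contra fun h => hts ⟨hfr, h⟩
      have hl := hasDerivAt_iff_isLittleO.1 (hg t)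
      simp only [hz, h0 t hfr, smul_zero, sub_zero] at hl
      rw [hasDerivAt_iff_isLittleO]
      simp only [indicator_of_notMem htU, smul_zero, sub_zero]
      refine Asymptotics.IsBigO.trans_isLittleO ?_ hl
      exact Asymptotics.IsBigO.of_bound 1 (Eventually.of_forall fun z => by
        rw [one_mul]; exact norm_indicator_le_norm_self g z)
    · refine (hasDerivAt_const t (0 : G)).congr_of_eventuallyEq ?_
      filter_upwards [isClosed_closure.isOpen_compl.mem_nhds htc] with z hz using
        indicator_of_notMem (fun h => hz (subset_closure h)) g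
  have h := integral_eq_of_hasDerivAt_off_countable_of_le (U.indicator g) (U.indicator g') hR0
    hScount hcont.continuousOn hd hi
  rw [intervalIntegral.integral_of_le hR0, setIntegral_indicator hU.measurableSet,
    inter_eq_self_of_subset_right (hR.trans Ioo_subset_Ioc_self), hout R (by simp),
    hout (-R) (by simp), sub_zero] at h
  exact h

/-- Fubini along one coordinate axis. -/
theorem setIntegral_slices (i : Fin 3) {Ω : Set Space} (hΩ : IsOpen Ω) (hb : Bornology.IsBounded Ω)
    {F : Space → G} (hF : Continuous F) :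
    (∫ x in Ω, F x) = ∫ y : Fin 2 → ℝ, ∫ t in {t | i.insertNth t y ∈ Ω}, F (i.insertNth t y) := by
  have hmp := (volume_preserving_piFinSuccAbove (fun _ : Fin 3 => ℝ) i).symm
  have hint : Integrable (Ω.indicator F) := by
    rw [integrable_indicator_iff hΩ.measurableSet]
    exact (hF.continuousOn.integrableOn_compact hb.isCompact_closure).mono_set subset_closure
  have e : ∀ z : ℝ × (Fin 2 → ℝ),
      (MeasurableEquiv.piFinSuccAbove (fun _ : Fin 3 => ℝ) i).symm z = i.insertNth z.1 z.2 :=
    fun z => rfl
  have h1 : (∫ x in Ω, F x) = ∫ z : ℝ × (Fin 2 → ℝ), Ω.indicator F (i.insertNth z.1 z.2) := by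
    rw [← integral_indicator hΩ.measurableSet, ← hmp.integral_comp' (Ω.indicator F)]
    rfl
  have h2 : Integrable (fun z : ℝ × (Fin 2 → ℝ) => Ω.indicator F (i.insertNth z.1 z.2))
      (volume.prod volume) := by
    have := (hmp.integrable_comp_emb (MeasurableEquiv.measurableEmbedding _)).2 hint
    exact this
  rw [h1, Measure.volume_eq_prod, integral_prod_symm _ h2]
  refine integral_congr_ae (Eventually.of_forall fun y => ?_)
  have ho : IsOpen {t : ℝ | i.insertNth t y ∈ Ω} := hΩ.preimage (by fun_prop)
  simp only
  rw [← integral_indicator ho.measurableSet]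
  refine integral_congr_ae (Eventually.of_forall fun t => ?_)
  simp only
  by_cases ht : i.insertNth t y ∈ Ω
  · rw [indicator_of_mem ht, indicator_of_mem (show t ∈ {t | i.insertNth t y ∈ Ω} from ht)]
  · rw [indicator_of_notMem ht, indicator_of_notMem (show t ∉ {t | i.insertNth t y ∈ Ω} from ht)]

/-- The partial derivative of a field vanishing on the boundary has integral zero. -/
theorem integral_pd_eq_zero [CompleteSpace G] {Ω : Set Space} (hΩ : IsOpen Ω)
    (hb : Bornology.IsBounded Ω) (i : Fin 3) {F F' : Space → G} (hF' : Continuous F')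
    (hd : ∀ (y : Fin 2 → ℝ) (t : ℝ), HasDerivAt (fun s => F (i.insertNth s y)) (F' (i.insertNth t y)) t)
    (h0 : ∀ x ∈ frontier Ω, F x = 0) : ∫ x in Ω, F' x = 0 := by
  obtain ⟨R, hR⟩ := hb.exists_norm_le
  rw [setIntegral_slices i hΩ hb hF']
  refine integral_eq_zero_of_ae (Eventually.of_forall fun y => ?_)
  have hc : Continuous fun t : ℝ => i.insertNth (α := fun _ => ℝ) t y := by fun_prop
  refine integral_deriv_eq_zero (hΩ.preimage hc) (R := R + 1) ?_ (hd y) (hF'.comp hc) ?_
  · intro t ht
    have h1 := (norm_le_pi_norm (i.insertNth (α := fun _ => ℝ) t y) i).trans (hR _ ht)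
    rw [Fin.insertNth_apply_same, Real.norm_eq_abs, abs_le] at h1
    exact ⟨by linarith [h1.1], by linarith [h1.2]⟩
  · intro t ht
    exact h0 _ (hc.frontier_preimage_subset Ω ht)

end

end Vale.Agent.P136
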