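import Mathlib
import Vale.Agent.P136.Defs

/-!
# P136: equal maps give the bilinear identity for weak solutions
-/

open MeasureTheory Set Filter
open scoped Topology

namespace Vale.Agent.P136

noncomputable section

/-- The bilinear density on real gradients. -/
def rdens (L M : ℝ) (G H : Fin 3 → Fin 3 → ℝ) : ℝ :=
  L * ((∑ i, G i i) * (∑ i, H i i)) + 2 * M * ∑ i, ∑ j, ((G i j + G j i) / 2) * ((H i j + H j i) / 2)

/-- The bilinear density on complex gradients. -/
def cdens (L M : ℝ) (G H : Fin 3 → Fin 3 → ℂ) : ℂ :=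
  L * ((∑ i, G i i) * (∑ i, H i i)) + 2 * M * ∑ i, ∑ j, ((G i j + G j i) / 2) * ((H i j + H j i) / 2)

theorem density_eq (lam mu : Space → ℝ) (u : Space → Space) (x : Space) :
    density lam mu u x = rdens (lam x) (mu x) (pd u x) (pd u x) := by
  simp [density, rdens, sq]

theorem rdens_comm (L M : ℝ) (G H : Fin 3 → Fin 3 → ℝ) : rdens L M G H = rdens L M H G := by
  simp only [rdens, Fin.sum_univ_three]; ring

theorem rdens_add_self (L M : ℝ) (G H : Fin 3 → Fin 3 → ℝ) :
    rdens L M (G + H) (G + H) = rdens L M G G + 2 * rdens L M G H + rdens L M H H := by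
  simp only [rdens, Fin.sum_univ_three, Pi.add_apply]; ring

theorem rdens_nonneg {L M : ℝ} (hM : 0 < M) (hL : 0 < 3 * L + 2 * M) (G : Fin 3 → Fin 3 → ℝ) :
    0 ≤ rdens L M G G := by
  simp only [rdens, Fin.sum_univ_three]
  nlinarith [mul_nonneg hM.le (sq_nonneg (G 0 0 - G 1 1)), mul_nonneg hM.le (sq_nonneg (G 1 1 - G 2 2)),
    mul_nonneg hM.le (sq_nonneg (G 2 2 - G 0 0)), mul_nonneg hL.le (sq_nonneg (G 0 0 + G 1 1 + G 2 2)),
    mul_nonneg hM.le (sq_nonneg (G 0 1 + G 1 0)), mul_nonneg hM.le (sq_nonneg (G 1 2 + G 2 1)),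
    mul_nonneg hM.le (sq_nonneg (G 0 2 + G 2 0))]

/-- The bilinear energy of two displacements. -/
def form (Ω : Set Space) (lam mu : Space → ℝ) (u v : Space → Space) : ℝ :=
  ∫ x in Ω, rdens (lam x) (mu x) (pd u x) (pd v x)

theorem form_comm (Ω : Set Space) (lam mu : Space → ℝ) (u v : Space → Space) :
    form Ω lam mu u v = form Ω lam mu v u := by simp [form, rdens_comm _ _ (pd u _)]

theorem energy_eq (Ω : Set Space) (lam mu : Space → ℝ) (u : Space → Space) :
    energy Ω lam mu u = form Ω lam mu u u := by simp [energy, form, density_eq]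

theorem pd_add {u v : Space → Space} (hu : ContDiff ℝ 1 u) (hv : ContDiff ℝ 1 v) (x : Space) :
    pd (u + v) x = pd u x + pd v x := by
  funext i j
  simp [pd, fderiv_add (hu.differentiable one_ne_zero x) (hv.differentiable one_ne_zero x)]

theorem continuous_pd {u : Space → Space} (hu : ContDiff ℝ 1 u) : Continuous (pd u) := by
  refine continuous_pi fun i => continuous_pi fun j => ?_
  exact (continuous_apply i).comp ((hu.continuous_fderiv one_ne_zero).clm_apply continuous_const)

theorem continuous_rdens {lam mu : Space → ℝ} (hl : Continuous lam) (hm : Continuous mu)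
    {G H : Space → Fin 3 → Fin 3 → ℝ} (hG : Continuous G) (hH : Continuous H) :
    Continuous fun x => rdens (lam x) (mu x) (G x) (H x) := by
  unfold rdens; fun_prop

theorem continuous_cdens {lam mu : Space → ℝ} (hl : Continuous lam) (hm : Continuous mu)
    {G H : Space → Fin 3 → Fin 3 → ℂ} (hG : Continuous G) (hH : Continuous H) :
    Continuous fun x => cdens (lam x) (mu x) (G x) (H x) := by
  unfold cdens; fun_prop

theorem integrableOn_of_continuous {G : Type*} [NormedAddCommGroup G] {Ω : Set Space}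
    (hb : Bornology.IsBounded Ω) {F : Space → G} (hF : Continuous F) : IntegrableOn F Ω :=
  (hF.continuousOn.integrableOn_compact hb.isCompact_closure).mono_set subset_closure

/-- Weak solutions which are continuously differentiable. -/
structure IsWeak (Ω : Set Space) (lam mu : Space → ℝ) (u : Space → Space) : Prop where
  smooth : ContDiff ℝ 1 u
  ortho : ∀ φ : Space → Space, ContDiff ℝ 1 φ → (∀ x ∈ frontier Ω, φ x = 0) → form Ω lam mu u φ = 0

/-- Moduli which are continuous and admissible in `Ω`. -/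
structure Good (Ω : Set Space) (lam mu : Space → ℝ) : Prop where
  isOpen : IsOpen Ω
  bounded : Bornology.IsBounded Ω
  lam_cont : Continuous lam
  mu_cont : Continuous mu
  admissible : ∀ x ∈ Ω, 0 < mu x ∧ 0 < 3 * lam x + 2 * mu x

variable {Ω : Set Space} {lam mu : Space → ℝ}

theorem form_add (h : Good Ω lam mu) {u v : Space → Space} (hu : ContDiff ℝ 1 u)
    (hv : ContDiff ℝ 1 v) :
    form Ω lam mu (u + v) (u + v) =
      form Ω lam mu u u + 2 * form Ω lam mu u v + form Ω lam mu v v := by
  have i1 := integrableOn_of_continuous h.bounded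
    (continuous_rdens h.lam_cont h.mu_cont (continuous_pd hu) (continuous_pd hu))
  have i2 := (integrableOn_of_continuous h.bounded
    (continuous_rdens h.lam_cont h.mu_cont (continuous_pd hu) (continuous_pd hv))).const_mul 2
  have i3 := integrableOn_of_continuous h.bounded
    (continuous_rdens h.lam_cont h.mu_cont (continuous_pd hv) (continuous_pd hv))
  unfold form
  simp only [pd_add hu hv, rdens_add_self]
  rw [integral_add (f := fun x => rdens (lam x) (mu x) (pd u x) (pd u x) +
      2 * rdens (lam x) (mu x) (pd u x) (pd v x)) (i1.add i2) i3, integral_add i1 i2, integral_const_mul]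

theorem form_sub (h : Good Ω lam mu) {u v w : Space → Space} (hu : ContDiff ℝ 1 u)
    (hv : ContDiff ℝ 1 v) (hw : ContDiff ℝ 1 w) :
    form Ω lam mu u (v + w) = form Ω lam mu u v + form Ω lam mu u w := by
  unfold form
  rw [← integral_add
    (integrableOn_of_continuous h.bounded
      (continuous_rdens h.lam_cont h.mu_cont (continuous_pd hu) (continuous_pd hv)))
    (integrableOn_of_continuous h.bounded
      (continuous_rdens h.lam_cont h.mu_cont (continuous_pd hu) (continuous_pd hw)))]
  refine integral_congr_ae (Eventually.of_forall fun x => ?_)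
  simp only [pd_add hv hw, rdens, Fin.sum_univ_three, Pi.add_apply]; ring

theorem energy_nonneg (h : Good Ω lam mu) (u : Space → Space) : 0 ≤ energy Ω lam mu u := by
  refine setIntegral_nonneg h.isOpen.measurableSet fun x hx => ?_
  rw [density_eq]; exact rdens_nonneg (h.admissible x hx).1 (h.admissible x hx).2 _

theorem minEnergy_bddBelow (h : Good Ω lam mu) (f : Space → Space) :
    BddBelow {E | ∃ u : Space → Space, ContDiff ℝ 1 u ∧ (∀ x ∈ frontier Ω, u x = f x) ∧
      E = energy Ω lam mu u} :=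
  ⟨0, by rintro E ⟨u, -, -, rfl⟩; exact energy_nonneg h u⟩

theorem minEnergy_nonempty (lam mu : Space → ℝ) {f : Space → Space} (hf : ContDiff ℝ 1 f) :
    {E | ∃ u : Space → Space, ContDiff ℝ 1 u ∧ (∀ x ∈ frontier Ω, u x = f x) ∧
      E = energy Ω lam mu u}.Nonempty :=
  ⟨_, f, hf, fun _ _ => rfl, rfl⟩

/-- A weak solution minimises, and shifts the least energy exactly. -/
theorem minEnergy_add (h : Good Ω lam mu) {u g : Space → Space} (hu : IsWeak Ω lam mu u)
    (hg : ContDiff ℝ 1 g) :
    minEnergy Ω lam mu (u + g) =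
      energy Ω lam mu u + 2 * form Ω lam mu u g + minEnergy Ω lam mu g := by
  have key : ∀ w, ContDiff ℝ 1 w → (∀ x ∈ frontier Ω, w x = g x) →
      energy Ω lam mu (u + w) = energy Ω lam mu u + 2 * form Ω lam mu u g + energy Ω lam mu w := by
    intro w hw hwg
    have h0 := hu.ortho (w - g) (hw.sub hg) fun x hx => by simp [hwg x hx]
    have e : form Ω lam mu u w = form Ω lam mu u g := by
      have h1 : form Ω lam mu u (g + (w - g)) = form Ω lam mu u g + form Ω lam mu u (w - g) :=
        form_sub h hu.smooth hg (hw.sub hg)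
      rw [h0, add_zero, add_sub_cancel] at h1
      exact h1
    rw [energy_eq, form_add h hu.smooth hw, e, ← energy_eq, ← energy_eq]
  refine le_antisymm ?_ ?_
  · suffices minEnergy Ω lam mu (u + g) - (energy Ω lam mu u + 2 * form Ω lam mu u g) ≤
        minEnergy Ω lam mu g by linarith
    refine le_csInf (minEnergy_nonempty lam mu hg) ?_
    rintro E ⟨w, hw, hwg, rfl⟩
    have := csInf_le (minEnergy_bddBelow h (u + g))
      ⟨u + w, hu.smooth.add hw, fun x hx => by simp [hwg x hx], rfl⟩
    rw [key w hw hwg] at this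
    unfold minEnergy; linarith
  · refine le_csInf (minEnergy_nonempty lam mu (hu.smooth.add hg)) ?_
    rintro E ⟨v, hv, hvg, rfl⟩
    have hwg : ∀ x ∈ frontier Ω, (v - u) x = g x := fun x hx => by simp [hvg x hx]
    have := csInf_le (minEnergy_bddBelow h g) ⟨v - u, hv.sub hu.smooth, hwg, rfl⟩
    have hk := key (v - u) (hv.sub hu.smooth) hwg
    rw [add_sub_cancel] at hk
    unfold minEnergy; linarith

theorem minEnergy_self (h : Good Ω lam mu) {u : Space → Space} (hu : IsWeak Ω lam mu u) :
    minEnergy Ω lam mu u = energy Ω lam mu u := by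
  refine le_antisymm (csInf_le (minEnergy_bddBelow h u) ⟨u, hu.smooth, fun _ _ => rfl, rfl⟩) ?_
  refine le_csInf (minEnergy_nonempty lam mu hu.smooth) ?_
  rintro E ⟨v, hv, hvu, rfl⟩
  have h0 := hu.ortho (v - u) (hv.sub hu.smooth) fun x hx => by simp [hvu x hx]
  have h1 : form Ω lam mu (u + (v - u)) (u + (v - u)) = form Ω lam mu u u +
      2 * form Ω lam mu u (v - u) + form Ω lam mu (v - u) (v - u) :=
    form_add h hu.smooth (hv.sub hu.smooth)
  rw [add_sub_cancel, h0, ← energy_eq, ← energy_eq, ← energy_eq] at h1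
  linarith [energy_nonneg h (v - u)]

/-- The identity between two weak solutions. -/
theorem form_eq_of_sameMap {lam₁ mu₁ lam₂ mu₂ : Space → ℝ} (h₁ : Good Ω lam₁ mu₁)
    (h₂ : Good Ω lam₂ mu₂) (hS : SameMap Ω lam₁ mu₁ lam₂ mu₂) {u v : Space → Space}
    (hu : IsWeak Ω lam₁ mu₁ u) (hv : IsWeak Ω lam₂ mu₂ v) :
    form Ω lam₁ mu₁ u v = form Ω lam₂ mu₂ u v := by
  have e1 := minEnergy_add h₁ hu hv.smooth
  have e2 := minEnergy_add h₂ hv hu.smooth
  rw [hS v hv.smooth, minEnergy_self h₂ hv] at e1
  have hsum : ContDiff ℝ 1 (u + v) := hu.smooth.add hv.smooth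
  rw [add_comm v u, ← hS _ hsum, ← hS u hu.smooth, minEnergy_self h₁ hu,
    form_comm Ω lam₂ mu₂ v u] at e2
  linarith

/-- Real part of a complex field. -/
def reField (Φ : Space → Fin 3 → ℂ) : Space → Space := fun x i => (Φ x i).re

/-- Imaginary part of a complex field. -/
def imField (Φ : Space → Fin 3 → ℂ) : Space → Space := fun x i => (Φ x i).im

/-- A complex field whose real and imaginary parts are weak solutions, with its gradient. -/
structure IsCWeak (Ω : Set Space) (lam mu : Space → ℝ) (Φ : Space → Fin 3 → ℂ)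
    (G : Space → Fin 3 → Fin 3 → ℂ) : Prop where
  cont : Continuous G
  re_weak : IsWeak Ω lam mu (reField Φ)
  im_weak : IsWeak Ω lam mu (imField Φ)
  pd_re : ∀ x i j, pd (reField Φ) x i j = (G x i j).re
  pd_im : ∀ x i j, pd (imField Φ) x i j = (G x i j).im

theorem cdens_split (L M : ℝ) (G H : Fin 3 → Fin 3 → ℂ) :
    cdens L M G H =
      ((rdens L M (fun i j => (G i j).re) (fun i j => (H i j).re) -
          rdens L M (fun i j => (G i j).im) (fun i j => (H i j).im) : ℝ) : ℂ) +
      ((rdens L M (fun i j => (G i j).re) (fun i j => (H i j).im) +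
          rdens L M (fun i j => (G i j).im) (fun i j => (H i j).re) : ℝ) : ℂ) * Complex.I := by
  apply Complex.ext <;>
    simp [cdens, rdens, Fin.sum_univ_three] <;> ring

/-- The identity for complex solutions. -/
theorem cform_eq_of_sameMap {lam₁ mu₁ lam₂ mu₂ : Space → ℝ} (h₁ : Good Ω lam₁ mu₁)
    (h₂ : Good Ω lam₂ mu₂) (hS : SameMap Ω lam₁ mu₁ lam₂ mu₂) {Φ Ψ : Space → Fin 3 → ℂ}
    {G H : Space → Fin 3 → Fin 3 → ℂ} (hu : IsCWeak Ω lam₁ mu₁ Φ G) (hv : IsCWeak Ω lam₂ mu₂ Ψ H) :
    ∫ x in Ω, (cdens (lam₁ x) (mu₁ x) (G x) (H x) - cdens (lam₂ x) (mu₂ x) (G x) (H x)) = 0 := by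
  have e : ∀ {u v : Space → Space}, IsWeak Ω lam₁ mu₁ u → IsWeak Ω lam₂ mu₂ v →
      Integrable (fun x => ((rdens (lam₁ x) (mu₁ x) (pd u x) (pd v x) -
        rdens (lam₂ x) (mu₂ x) (pd u x) (pd v x) : ℝ) : ℂ)) (volume.restrict Ω) ∧
      ∫ x in Ω, ((rdens (lam₁ x) (mu₁ x) (pd u x) (pd v x) -
        rdens (lam₂ x) (mu₂ x) (pd u x) (pd v x) : ℝ) : ℂ) = 0 := by
    intro u v hu hv
    have i1 := integrableOn_of_continuous h₁.bounded
      (continuous_rdens h₁.lam_cont h₁.mu_cont (continuous_pd hu.smooth) (continuous_pd hv.smooth))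
    have i2 := integrableOn_of_continuous h₁.bounded
      (continuous_rdens h₂.lam_cont h₂.mu_cont (continuous_pd hu.smooth) (continuous_pd hv.smooth))
    refine ⟨(i1.sub i2).ofReal, ?_⟩
    rw [integral_complex_ofReal, integral_sub i1 i2]
    have := form_eq_of_sameMap h₁ h₂ hS hu hv
    unfold form at this
    simp [this]
  obtain ⟨i1, z1⟩ := e hu.re_weak hv.re_weak
  obtain ⟨i2, z2⟩ := e hu.im_weak hv.im_weak
  obtain ⟨i3, z3⟩ := e hu.re_weak hv.im_weak
  obtain ⟨i4, z4⟩ := e hu.im_weak hv.re_weak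
  have key : ∀ x, cdens (lam₁ x) (mu₁ x) (G x) (H x) - cdens (lam₂ x) (mu₂ x) (G x) (H x) =
      (((rdens (lam₁ x) (mu₁ x) (pd (reField Φ) x) (pd (reField Ψ) x) -
          rdens (lam₂ x) (mu₂ x) (pd (reField Φ) x) (pd (reField Ψ) x) : ℝ) : ℂ) -
        ((rdens (lam₁ x) (mu₁ x) (pd (imField Φ) x) (pd (imField Ψ) x) -
          rdens (lam₂ x) (mu₂ x) (pd (imField Φ) x) (pd (imField Ψ) x) : ℝ) : ℂ)) +
      (((rdens (lam₁ x) (mu₁ x) (pd (reField Φ) x) (pd (imField Ψ) x) -
          rdens (lam₂ x) (mu₂ x) (pd (reField Φ) x) (pd (imField Ψ) x) : ℝ) : ℂ) +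
        ((rdens (lam₁ x) (mu₁ x) (pd (imField Φ) x) (pd (reField Ψ) x) -
          rdens (lam₂ x) (mu₂ x) (pd (imField Φ) x) (pd (reField Ψ) x) : ℝ) : ℂ)) * Complex.I := by
    intro x
    simp only [funext fun i => funext (hu.pd_re x i), funext fun i => funext (hv.pd_re x i),
      funext fun i => funext (hu.pd_im x i), funext fun i => funext (hv.pd_im x i)]
    rw [cdens_split, cdens_split]
    push_cast
    ring
  simp only [key]
  rw [integral_add, integral_sub i1 i2, integral_mul_const, integral_add i3 i4, z1, z2, z3, z4]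
  · simp
  · exact i1.sub i2
  · exact (i3.add i4).mul_const Complex.I

end

end Vale.Agent.P136
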