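import Mathlib
import Vale.Agent.P136.Green
import Vale.Agent.P136.Identity

/-!
# P136: separated exponential solutions in a layered medium
-/

open MeasureTheory Set Filter
open scoped Topology

namespace Vale.Agent.P136

noncomputable section

/-- The gradient profile of a mode. -/
def prof (z : ℂ) (Y Y' : Fin 3 → ℝ → ℂ) (i j : Fin 3) (t : ℝ) : ℂ :=
  ![z * Y i t, 0, Y' i t] j

/-- The field `exp (z x₀) Y (x₂)`. -/
def modeField (z : ℂ) (Y : Fin 3 → ℝ → ℂ) (x : Space) (i : Fin 3) : ℂ :=
  Complex.exp (z * (x 0 : ℂ)) * Y i (x 2)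

/-- The gradient of a mode. -/
def modeGrad (z : ℂ) (Y Y' : Fin 3 → ℝ → ℂ) (x : Space) (i j : Fin 3) : ℂ :=
  Complex.exp (z * (x 0 : ℂ)) * prof z Y Y' i j (x 2)

variable {z : ℂ} {Y Y' : Fin 3 → ℝ → ℂ}

theorem continuous_prof (hY : ∀ i t, HasDerivAt (Y i) (Y' i t) t) (hY' : ∀ i, Continuous (Y' i))
    (i j : Fin 3) : Continuous (prof z Y Y' i j) := by
  have hc : Continuous (Y i) := continuous_iff_continuousAt.2 fun t => (hY i t).continuousAt
  fin_cases j
  · exact continuous_const.mul hc
  · exact continuous_const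
  · exact hY' i

theorem continuous_modeGrad (hY : ∀ i t, HasDerivAt (Y i) (Y' i t) t)
    (hY' : ∀ i, Continuous (Y' i)) : Continuous (modeGrad z Y Y') := by
  refine continuous_pi fun i => continuous_pi fun j => ?_
  exact (Complex.continuous_exp.comp (continuous_const.mul
    (Complex.continuous_ofReal.comp (continuous_apply 0)))).mul
      ((continuous_prof hY hY' i j).comp (continuous_apply 2))

theorem contDiff_one_of_deriv {F : Type*} [NormedAddCommGroup F] [NormedSpace ℝ F] {f f' : ℝ → F}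
    (h : ∀ t, HasDerivAt f (f' t) t) (h' : Continuous f') : ContDiff ℝ 1 f := by
  refine contDiff_one_iff_deriv.2 ⟨fun t => (h t).differentiableAt, ?_⟩
  rwa [show deriv f = f' from funext fun t => (h t).deriv]

theorem contDiff_modeField (hY : ∀ i t, HasDerivAt (Y i) (Y' i t) t)
    (hY' : ∀ i, Continuous (Y' i)) (i : Fin 3) : ContDiff ℝ 1 fun x => modeField z Y x i := by
  refine ContDiff.mul ?_ ((contDiff_one_of_deriv (hY i) (hY' i)).comp (contDiff_apply ℝ ℝ 2))
  exact (contDiff_const.mul (Complex.ofRealCLM.contDiff.comp (contDiff_apply ℝ ℝ 0))).cexp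

theorem fderiv_modeField (hY : ∀ i t, HasDerivAt (Y i) (Y' i t) t) (x : Space) (i j : Fin 3) :
    fderiv ℝ (fun x => modeField z Y x i) x (Pi.single j 1) = modeGrad z Y Y' x i j := by
  have h1 : HasFDerivAt (fun y : Space => Complex.exp (z * (y 0 : ℂ)))
      (Complex.exp (z * (x 0 : ℂ)) • (z • Complex.ofRealCLM.comp (ContinuousLinearMap.proj 0))) x :=
    (((Complex.ofRealCLM.hasFDerivAt).comp x (hasFDerivAt_apply 0 x)).const_mul z).cexp
  have h2 : HasFDerivAt (fun y : Space => Y i (y 2))
      ((ContinuousLinearMap.toSpanSingleton ℝ (Y' i (x 2))).comp (ContinuousLinearMap.proj 2)) x :=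
    (hY i (x 2)).hasFDerivAt.comp x (hasFDerivAt_apply 2 x)
  have h : HasFDerivAt (fun y : Space => Complex.exp (z * (y 0 : ℂ)) * Y i (y 2)) _ x := h1.mul h2
  rw [show (fun x => modeField z Y x i) = fun y : Space => Complex.exp (z * (y 0 : ℂ)) * Y i (y 2)
    from rfl]
  rw [h.fderiv]
  fin_cases j <;> simp [modeGrad, prof] <;> ring

theorem pd_component {Φ : Space → Fin 3 → ℂ} (hΦ : ∀ i, ContDiff ℝ 1 fun x => Φ x i) (L : ℂ →L[ℝ] ℝ)
    (x : Space) (i j : Fin 3) :
    pd (fun y k => L (Φ y k)) x i j = L (fderiv ℝ (fun y => Φ y i) x (Pi.single j 1)) := by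
  have h : HasFDerivAt (fun y k => L (Φ y k))
      (ContinuousLinearMap.pi fun k => L.comp (fderiv ℝ (fun y => Φ y k) x)) x :=
    hasFDerivAt_pi.2 fun k =>
      L.hasFDerivAt.comp x ((hΦ k).differentiable one_ne_zero x).hasFDerivAt
  simp [pd, h.fderiv]

/-- Differentiation of a field along a coordinate axis. -/
theorem hasDerivAt_insertNth (i : Fin 3) (y : Fin 2 → ℝ) (t : ℝ) :
    HasDerivAt (fun s : ℝ => i.insertNth (α := fun _ => ℝ) s y) (Pi.single i 1) t := by
  refine hasDerivAt_pi.2 fun k => ?_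
  rcases Fin.eq_self_or_eq_succAbove i k with rfl | ⟨k', rfl⟩
  · simp only [Fin.insertNth_apply_same, Pi.single_eq_same]; exact hasDerivAt_id' t
  · simpa [Fin.succAbove_ne] using hasDerivAt_const t (y k')

theorem hasDerivAt_component {φ : Space → Space} (hφ : ContDiff ℝ 1 φ) (i j : Fin 3) (y : Fin 2 → ℝ)
    (t : ℝ) : HasDerivAt (fun s => ((φ (j.insertNth s y) i : ℝ) : ℂ))
      ((pd φ (j.insertNth t y) i j : ℝ) : ℂ) t := by
  have h := (hφ.differentiable one_ne_zero (j.insertNth t y)).hasFDerivAt.comp_hasDerivAt t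
    (hasDerivAt_insertNth j y t)
  exact (hasDerivAt_pi.1 h i).ofReal_comp

theorem cdens_ofReal_re (L M : ℝ) (G : Fin 3 → Fin 3 → ℂ) (H : Fin 3 → Fin 3 → ℝ) :
    (cdens L M G (fun i j => (H i j : ℂ))).re = rdens L M (fun i j => (G i j).re) H ∧
    (cdens L M G (fun i j => (H i j : ℂ))).im = rdens L M (fun i j => (G i j).im) H := by
  constructor <;> simp [cdens, rdens, Fin.sum_univ_three]

/-- A mode is a weak solution as soon as its stress profile has no divergence in `Ω`. -/
theorem mode_isCWeak {Ω : Set Space} (hΩ : IsOpen Ω) (hb : Bornology.IsBounded Ω) {l m : ℝ → ℝ}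
    (hl : Continuous l) (hm : Continuous m) (hY : ∀ i t, HasDerivAt (Y i) (Y' i t) t)
    (hY' : ∀ i, Continuous (Y' i)) (S : Fin 3 → Fin 3 → ℝ → ℂ) (S' : Fin 3 → ℝ → ℂ)
    (hS : ∀ i j, Continuous (S i j)) (hS2 : ∀ i t, HasDerivAt (S i 2) (S' i t) t)
    (hS' : ∀ i, Continuous (S' i))
    (hstress : ∀ x ∈ Ω, ∀ i j, S i j (x 2) =
      (if i = j then (l (x 2) : ℂ) * ∑ k, prof z Y Y' k k (x 2) else 0) +
        (m (x 2) : ℂ) * (prof z Y Y' i j (x 2) + prof z Y Y' j i (x 2)))
    (hdiv : ∀ x ∈ Ω, ∀ i, z * S i 0 (x 2) + S' i (x 2) = 0) :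
    IsCWeak Ω (fun x => l (x 2)) (fun x => m (x 2)) (modeField z Y) (modeGrad z Y Y') := by
  have hΦ : ∀ i, ContDiff ℝ 1 fun x => modeField z Y x i := contDiff_modeField hY hY'
  have hre : ∀ x i j, pd (reField (modeField z Y)) x i j = (modeGrad z Y Y' x i j).re := fun x i j => by
    rw [← fderiv_modeField hY x i j]; exact pd_component hΦ Complex.reCLM x i j
  have him : ∀ x i j, pd (imField (modeField z Y)) x i j = (modeGrad z Y Y' x i j).im := fun x i j => by
    rw [← fderiv_modeField hY x i j]; exact pd_component hΦ Complex.imCLM x i j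
  have hl' : Continuous fun x : Space => l (x 2) := hl.comp (continuous_apply 2)
  have hm' : Continuous fun x : Space => m (x 2) := hm.comp (continuous_apply 2)
  have main : ∀ φ : Space → Space, ContDiff ℝ 1 φ → (∀ x ∈ frontier Ω, φ x = 0) →
      ∫ x in Ω, cdens (l (x 2)) (m (x 2)) (modeGrad z Y Y' x) (fun i j => (pd φ x i j : ℂ)) = 0 := by
    intro φ hφ h0
    have hp : ∀ i j, Continuous fun x => (pd φ x i j : ℂ) := fun i j =>
      Complex.continuous_ofReal.comp
        ((continuous_apply j).comp ((continuous_apply i).comp (continuous_pd hφ)))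
    have hφc : ∀ i, Continuous fun x => (φ x i : ℂ) := fun i =>
      Complex.continuous_ofReal.comp ((continuous_apply i).comp hφ.continuous)
    have hex : Continuous fun x : Space => Complex.exp (z * (x 0 : ℂ)) := by fun_prop
    have hSc : ∀ i j, Continuous fun x : Space => S i j (x 2) := fun i j =>
      (hS i j).comp (continuous_apply 2)
    have hSc' : ∀ i, Continuous fun x : Space => S' i (x 2) := fun i =>
      (hS' i).comp (continuous_apply 2)
    set F0 : Space → ℂ := fun x => ∑ i, Complex.exp (z * (x 0 : ℂ)) *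
      (z * S i 0 (x 2) * (φ x i : ℂ) + S i 0 (x 2) * (pd φ x i 0 : ℂ)) with hF0
    set F1 : Space → ℂ := fun x => ∑ i, Complex.exp (z * (x 0 : ℂ)) *
      (S i 1 (x 2) * (pd φ x i 1 : ℂ)) with hF1
    set F2 : Space → ℂ := fun x => ∑ i, Complex.exp (z * (x 0 : ℂ)) *
      (S' i (x 2) * (φ x i : ℂ) + S i 2 (x 2) * (pd φ x i 2 : ℂ)) with hF2
    have c0 : Continuous F0 := by
      refine continuous_finsetSum _ fun i _ => hex.mul ?_
      exact ((continuous_const.mul (hSc i 0)).mul (hφc i)).add ((hSc i 0).mul (hp i 0))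
    have c1 : Continuous F1 := continuous_finsetSum _ fun i _ => hex.mul ((hSc i 1).mul (hp i 1))
    have c2 : Continuous F2 := by
      refine continuous_finsetSum _ fun i _ => hex.mul ?_
      exact ((hSc' i).mul (hφc i)).add ((hSc i 2).mul (hp i 2))
    have hz : ∀ (k : Fin 3) (x : Space), x ∈ frontier Ω →
        (∑ i, Complex.exp (z * (x 0 : ℂ)) * S i k (x 2) * (φ x i : ℂ)) = 0 := fun k x hx => by
      simp [h0 x hx]
    have k1 : ∀ (y : Fin 2 → ℝ) (t : ℝ), (1 : Fin 3).insertNth (α := fun _ => ℝ) t y 0 = y 0 ∧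
        (1 : Fin 3).insertNth (α := fun _ => ℝ) t y 2 = y 1 := fun y t => by
      constructor <;> simp [Fin.insertNth, Fin.succAboveCases]
    have z0 : ∫ x in Ω, F0 x = 0 := by
      refine integral_pd_eq_zero hΩ hb 0 c0 (fun y t => ?_) (hz 0)
      refine (HasDerivAt.fun_sum fun i _ => ?_)
      have a : HasDerivAt (fun s => Complex.exp (z * (((0 : Fin 3).insertNth (α := fun _ => ℝ) s y 0 : ℝ) : ℂ)))
          (Complex.exp (z * (((0 : Fin 3).insertNth (α := fun _ => ℝ) t y 0 : ℝ) : ℂ)) * z) t := by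
        simpa using (((hasDerivAt_id t).ofReal_comp).const_mul z).cexp
      have b := (a.mul_const (S i 0 ((0 : Fin 3).insertNth (α := fun _ => ℝ) t y 2))).mul
        (hasDerivAt_component hφ i 0 y t)
      have e : ∀ s, (0 : Fin 3).insertNth (α := fun _ => ℝ) s y 2 = y 1 := fun s => by
        simp [Fin.insertNth, Fin.succAboveCases]
      simp only [e] at b ⊢
      exact b.congr_deriv (by ring)
    have z1 : ∫ x in Ω, F1 x = 0 := by
      refine integral_pd_eq_zero hΩ hb 1 c1 (fun y t => ?_) (hz 1)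
      refine (HasDerivAt.fun_sum fun i _ => ?_)
      simp only [(k1 y _).1, (k1 y _).2]
      exact ((hasDerivAt_component hφ i 1 y t).const_mul
        (Complex.exp (z * (y 0 : ℂ)) * S i 1 (y 1))).congr_deriv (by ring)
    have z2 : ∫ x in Ω, F2 x = 0 := by
      refine integral_pd_eq_zero hΩ hb 2 c2 (fun y t => ?_) (hz 2)
      refine (HasDerivAt.fun_sum fun i _ => ?_)
      have e : ∀ s, (2 : Fin 3).insertNth (α := fun _ => ℝ) s y 0 = y 0 ∧
          (2 : Fin 3).insertNth (α := fun _ => ℝ) s y 2 = s := fun s => by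
        constructor <;> simp [Fin.insertNth, Fin.succAboveCases]
      simp only [(e _).1, (e _).2]
      exact (((hS2 i t).const_mul (Complex.exp (z * (y 0 : ℂ)))).mul
        (hasDerivAt_component hφ i 2 y t)).congr_deriv (by ring)
    have key : ∀ x ∈ Ω, cdens (l (x 2)) (m (x 2)) (modeGrad z Y Y' x) (fun i j => (pd φ x i j : ℂ))
        = F0 x + F1 x + F2 x := by
      intro x hx
      have d0 := hdiv x hx 0
      have d1 := hdiv x hx 1
      have d2 := hdiv x hx 2
      simp only [hF0, hF1, hF2, cdens, modeGrad, Fin.sum_univ_three, hstress x hx] at d0 d1 d2 ⊢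
      simp only [Fin.reduceEq, if_true, if_false, zero_add] at d0 d1 d2 ⊢
      linear_combination -(Complex.exp (z * (x 0 : ℂ)) * (φ x 0 : ℂ)) * d0 -
        (Complex.exp (z * (x 0 : ℂ)) * (φ x 1 : ℂ)) * d1 -
        (Complex.exp (z * (x 0 : ℂ)) * (φ x 2 : ℂ)) * d2
    rw [setIntegral_congr_fun hΩ.measurableSet key]
    have j0 : Integrable F0 (volume.restrict Ω) := integrableOn_of_continuous hb c0
    have j1 : Integrable F1 (volume.restrict Ω) := integrableOn_of_continuous hb c1
    have j2 : Integrable F2 (volume.restrict Ω) := integrableOn_of_continuous hb c2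
    rw [integral_add (f := fun x => F0 x + F1 x) (j0.add j1) j2, integral_add j0 j1, z0, z1, z2]
    simp
  have hint : ∀ φ : Space → Space, ContDiff ℝ 1 φ → Integrable (fun x =>
      cdens (l (x 2)) (m (x 2)) (modeGrad z Y Y' x) (fun i j => (pd φ x i j : ℂ)))
      (volume.restrict Ω) := fun φ hφ =>
    integrableOn_of_continuous hb (continuous_cdens hl' hm' (continuous_modeGrad hY hY')
      (continuous_pi fun i => continuous_pi fun j => Complex.continuous_ofReal.comp
        ((continuous_apply j).comp ((continuous_apply i).comp (continuous_pd hφ)))))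
  refine ⟨continuous_modeGrad hY hY', ⟨contDiff_pi.2 fun i => Complex.reCLM.contDiff.comp (hΦ i), ?_⟩,
    ⟨contDiff_pi.2 fun i => Complex.imCLM.contDiff.comp (hΦ i), ?_⟩, hre, him⟩
  · intro φ hφ h0
    have := congrArg Complex.reCLM (main φ hφ h0)
    rw [← Complex.reCLM.integral_comp_comm (hint φ hφ), map_zero] at this
    refine (integral_congr_ae (Eventually.of_forall fun x => ?_)).trans this
    simp only [Complex.reCLM_apply, (cdens_ofReal_re _ _ _ (pd φ x)).1]
    rw [funext fun i => funext (hre x i)]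
  · intro φ hφ h0
    have := congrArg Complex.imCLM (main φ hφ h0)
    rw [← Complex.imCLM.integral_comp_comm (hint φ hφ), map_zero] at this
    refine (integral_congr_ae (Eventually.of_forall fun x => ?_)).trans this
    simp only [Complex.imCLM_apply, (cdens_ofReal_re _ _ _ (pd φ x)).2]
    rw [funext fun i => funext (him x i)]

end

end Vale.Agent.P136
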