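import Mathlib

/-!
# P136: a perturbed Laplace transform on an interval is injective
-/

open MeasureTheory Set Filter
open scoped Topology

namespace Vale.Agent.P136

noncomputable section

theorem tendsto_reciprocal_sum {L : ℝ} (hL : 0 < L) :
    Tendsto (fun ξ : ℝ => ∑' n : ℤ, 1 / (ξ ^ 2 + (Real.pi * n / L) ^ 2)) atTop (𝓝 0) := by
  let bd : ℤ → ℝ := fun n => (if n = 0 then 1 else 0) + (L / Real.pi) ^ 2 * (1 / (n : ℝ) ^ 2)
  have hbd : Summable bd := by
    refine Summable.add ?_ ((Real.summable_one_div_int_pow.2 one_lt_two).mul_left _)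
    exact summable_of_ne_finset_zero (s := {0}) fun n hn => if_neg (by simpa using hn)
  have h := tendsto_tsum_of_dominated_convergence (f := fun (ξ : ℝ) (n : ℤ) =>
      1 / (ξ ^ 2 + (Real.pi * n / L) ^ 2)) (g := fun _ => (0 : ℝ)) (𝓕 := atTop) hbd (fun n => ?_) ?_
  · simpa using h
  · have : Tendsto (fun ξ : ℝ => ξ ^ 2 + (Real.pi * n / L) ^ 2) atTop atTop :=
      tendsto_atTop_add_const_right _ _ (tendsto_pow_atTop two_ne_zero)
    simpa only [one_div, Pi.inv_def] using this.inv_tendsto_atTop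
  · filter_upwards [eventually_ge_atTop (1 : ℝ)] with ξ hξ n
    have hq : 0 ≤ (Real.pi * n / L) ^ 2 := sq_nonneg _
    have h1 : (1 : ℝ) ≤ ξ ^ 2 := one_le_pow₀ hξ
    rw [Real.norm_eq_abs, abs_of_nonneg (by positivity)]
    by_cases hn : n = 0
    · subst hn
      simp only [bd, if_pos, Int.cast_zero]
      simp only [ne_eq, OfNat.ofNat_ne_zero, not_false_eq_true, zero_pow, mul_zero, zero_div,
        add_zero, div_zero]
      rw [div_le_one (by positivity)]
      exact h1
    · have hn' : (n : ℝ) ≠ 0 := by exact_mod_cast hn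
      simp only [bd, if_neg hn, zero_add]
      rw [show (L / Real.pi) ^ 2 * (1 / (n : ℝ) ^ 2) = 1 / (Real.pi * n / L) ^ 2 by field_simp]
      exact one_div_le_one_div_of_le (by positivity) (le_add_of_nonneg_left (by positivity))

theorem sq_integral_le {p q : ℝ} (hpq : p < q) {H : ℝ → ℝ} (h1 : IntervalIntegrable H volume p q)
    (h2 : IntervalIntegrable (fun t => H t ^ 2) volume p q) :
    (∫ t in p..q, H t) ^ 2 ≤ (q - p) * ∫ t in p..q, H t ^ 2 := by
  set a := (∫ t in p..q, H t) / (q - p)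
  have h : 0 ≤ ∫ t in p..q, (H t - a) ^ 2 :=
    intervalIntegral.integral_nonneg hpq.le fun t _ => sq_nonneg _
  have e : ∀ t, (H t - a) ^ 2 = (H t ^ 2 - (2 * a) * H t) + a ^ 2 := fun t => by ring
  simp only [e] at h
  rw [intervalIntegral.integral_add (h2.sub (h1.const_mul _)) intervalIntegrable_const,
    intervalIntegral.integral_sub h2 (h1.const_mul _), intervalIntegral.integral_const_mul,
    intervalIntegral.integral_const, smul_eq_mul] at h
  have hl : 0 < q - p := by linarith
  simp only [a] at h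
  field_simp at h
  nlinarith

/-- A family of perturbed Laplace transforms which cannot all be small. -/
theorem laplace_vanish {p q : ℝ} (hpq : p < q) {ι : Type*} [Fintype ι] {h : ℝ → ℝ} {B : ℝ}
    (hm : Measurable h) (hB : ∀ t, |h t| ≤ B) {φ : ι → ℝ → ℂ} (hφ : ∀ k, Continuous (φ k)) {c : ℝ}
    (hc : 0 < c) (hcφ : ∀ t ∈ Icc p q, c ≤ ∑ k, ‖φ k t‖ ^ 2) {C ξ₀ : ℝ}
    (hest : ∀ κ : ℂ, ξ₀ ≤ κ.re → ∀ k,
      ‖∫ t in p..q, (h t : ℂ) * φ k t * Complex.exp (2 * κ * t)‖ ≤
        C / ‖κ‖ * ∫ t in p..q, |h t| * Real.exp (2 * κ.re * t)) :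
    ∀ᵐ t ∂volume.restrict (Ioc p q), h t = 0 := by
  have hl : 0 < q - p := by linarith
  have hS := (tendsto_reciprocal_sum hl).eventually (ge_mem_nhds
    (show (0 : ℝ) < c / ((Fintype.card ι + 1) * (C ^ 2 + 1)) by positivity))
  obtain ⟨ξ, hξS, hξ0, hξ1⟩ := (hS.and ((eventually_ge_atTop ξ₀).and (eventually_ge_atTop 1))).exists
  set S := ∑' n : ℤ, 1 / (ξ ^ 2 + (Real.pi * n / (q - p)) ^ 2) with hSdef
  have hSnn : 0 ≤ S := tsum_nonneg fun n => by positivity
  have hSsum : Summable fun n : ℤ => 1 / (ξ ^ 2 + (Real.pi * n / (q - p)) ^ 2) := by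
    refine Summable.of_nonneg_of_le (fun n => by positivity) (fun n => ?_)
      ((Summable.add (summable_of_ne_finset_zero (s := {0}) (f := fun n : ℤ => if n = 0 then (1 : ℝ) else 0)
        fun n hn => if_neg (by simpa using hn))
        ((Real.summable_one_div_int_pow.2 one_lt_two).mul_left (((q - p) / Real.pi) ^ 2))))
    have h1 : (1 : ℝ) ≤ ξ ^ 2 := one_le_pow₀ hξ1
    by_cases hn : n = 0
    · subst hn
      simp only [if_pos, Int.cast_zero]
      simp only [ne_eq, OfNat.ofNat_ne_zero, not_false_eq_true, zero_pow, mul_zero, zero_div,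
        add_zero, div_zero]
      rw [div_le_one (by positivity)]; exact h1
    · have hn' : (n : ℝ) ≠ 0 := by exact_mod_cast hn
      simp only [if_neg hn, zero_add]
      rw [show ((q - p) / Real.pi) ^ 2 * (1 / (n : ℝ) ^ 2) = 1 / (Real.pi * n / (q - p)) ^ 2 by
        field_simp]
      exact one_div_le_one_div_of_le (by positivity) (le_add_of_nonneg_left (by positivity))
  set w : ℝ → ℝ := fun t => Real.exp (2 * ξ * t) with hw
  set H : ℝ → ℝ := fun t => |h t| * w t with hH
  have hwc : Continuous w := by fun_prop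
  have hbdd : ∀ {G : ℝ → ℝ}, Continuous G → IntervalIntegrable (fun t => |h t| * G t) volume p q := by
    intro G hG
    rw [intervalIntegrable_iff_integrableOn_Ioc_of_le hpq.le]
    refine ((hG.integrableOn_Icc (a := p) (b := q)).mono_set Ioc_subset_Icc_self).bdd_mul
      (c := B) hm.abs.aestronglyMeasurable (Eventually.of_forall fun t => ?_)
    rw [Real.norm_eq_abs, abs_abs]; exact hB t
  have hH1 : IntervalIntegrable H volume p q := hbdd hwc
  have hsq : ∀ {G : ℝ → ℝ}, Continuous G → IntervalIntegrable (fun t => h t ^ 2 * G t) volume p q := by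
    intro G hG
    rw [intervalIntegrable_iff_integrableOn_Ioc_of_le hpq.le]
    refine ((hG.integrableOn_Icc (a := p) (b := q)).mono_set Ioc_subset_Icc_self).bdd_mul
      (c := B ^ 2) (hm.pow_const 2).aestronglyMeasurable (Eventually.of_forall fun t => ?_)
    rw [Real.norm_eq_abs, abs_pow]
    exact pow_le_pow_left₀ (abs_nonneg _) (hB t) 2
  have hH2' : ∀ t, H t ^ 2 = h t ^ 2 * w t ^ 2 := fun t => by simp [H, mul_pow, sq_abs]
  have hH2 : IntervalIntegrable (fun t => H t ^ 2) volume p q := by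
    simp only [hH2']; exact hsq (hwc.pow 2)
  set J := ∫ t in p..q, H t ^ 2 with hJ
  have hI := sq_integral_le hpq hH1 hH2
  set f : ι → ℝ → ℂ := fun k t => (h t : ℂ) * φ k t * (w t : ℂ) with hf
  have hfn : ∀ k t, ‖f k t‖ ^ 2 = h t ^ 2 * (‖φ k t‖ ^ 2 * w t ^ 2) := fun k t => by
    simp only [f, norm_mul, Complex.norm_real, Real.norm_eq_abs, mul_pow, sq_abs]; ring
  have hk : ∀ k, ∫ t in p..q, ‖f k t‖ ^ 2 ≤ C ^ 2 * S * J := by
    intro k
    have hmeas : AEStronglyMeasurable (f k) (volume.restrict (Ioc p q)) :=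
      (((Complex.continuous_ofReal.measurable.comp hm).mul (hφ k).measurable).mul
        (Complex.continuous_ofReal.comp hwc).measurable).aestronglyMeasurable
    have hL2 : MemLp (f k) 2 (volume.restrict (Ioc p q)) := by
      refine (memLp_two_iff_integrable_sq_norm hmeas).2 ?_
      simp only [hfn]
      exact (intervalIntegrable_iff_integrableOn_Ioc_of_le hpq.le).1
        (hsq (((hφ k).norm.pow 2).mul (hwc.pow 2)))
    have hP := hasSum_sq_fourierCoeffOn hpq hL2
    rw [smul_eq_mul] at hP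
    have hcn : ∀ n : ℤ, ‖fourierCoeffOn hpq (f k) n‖ ^ 2 ≤
        C ^ 2 / (q - p) * J * (1 / (ξ ^ 2 + (Real.pi * n / (q - p)) ^ 2)) := by
      intro n
      obtain ⟨η, hη⟩ : ∃ η, η = -(Real.pi * n / (q - p)) := ⟨_, rfl⟩
      set κ : ℂ := (ξ : ℂ) + (η : ℂ) * Complex.I with hκ
      have hre : κ.re = ξ := by simp [κ]
      have hκn : ‖κ‖ ^ 2 = ξ ^ 2 + (Real.pi * n / (q - p)) ^ 2 := by
        rw [Complex.sq_norm, Complex.normSq_apply]; simp [κ]; rw [hη]; ring
      have he := hest κ (by rw [hre]; exact hξ0) k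
      rw [hre] at he
      rw [fourierCoeffOn_eq_integral, norm_smul, Real.norm_eq_abs,
        abs_of_pos (one_div_pos.2 hl)]
      have eint : ∫ x in p..q, fourier (-n) (x : AddCircle (q - p)) • f k x =
          ∫ t in p..q, (h t : ℂ) * φ k t * Complex.exp (2 * κ * t) := by
        refine intervalIntegral.integral_congr fun t _ => ?_
        simp only [smul_eq_mul, f, w, fourier_coe_apply]
        have hl' : ((q : ℂ) - p) ≠ 0 := by exact_mod_cast hl.ne'
        have e2 : Complex.exp (2 * κ * t) =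
            Complex.exp (2 * Real.pi * Complex.I * ((-n : ℤ) : ℂ) * t / ((q - p : ℝ) : ℂ)) *
              ((Real.exp (2 * ξ * t) : ℝ) : ℂ) := by
          rw [Complex.ofReal_exp, ← Complex.exp_add]
          congr 1
          simp only [κ, hη]
          push_cast
          field_simp
          ring
        rw [e2]; ring
      rw [eint]
      have hI0 : 0 ≤ ∫ t in p..q, H t :=
        intervalIntegral.integral_nonneg hpq.le fun t _ => mul_nonneg (abs_nonneg _) (Real.exp_pos _).le
      have := pow_le_pow_left₀ (by positivity) (mul_le_mul_of_nonneg_left he (one_div_pos.2 hl).le) 2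
      refine this.trans ?_
      calc (1 / (q - p) * (C / ‖κ‖ * ∫ t in p..q, H t)) ^ 2
          = C ^ 2 / ((q - p) ^ 2 * ‖κ‖ ^ 2) * (∫ t in p..q, H t) ^ 2 := by field_simp
        _ ≤ C ^ 2 / ((q - p) ^ 2 * ‖κ‖ ^ 2) * ((q - p) * J) :=
            mul_le_mul_of_nonneg_left hI (by positivity)
        _ = _ := by rw [hκn]; field_simp
    have := hasSum_le hcn hP (hSsum.hasSum.mul_left _)
    rw [← hSdef] at this
    calc ∫ t in p..q, ‖f k t‖ ^ 2 = (q - p) * ((q - p)⁻¹ * ∫ t in p..q, ‖f k t‖ ^ 2) := by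
          field_simp
      _ ≤ (q - p) * (C ^ 2 / (q - p) * J * S) := mul_le_mul_of_nonneg_left this hl.le
      _ = _ := by field_simp
  have hJnn : 0 ≤ J := intervalIntegral.integral_nonneg hpq.le fun t _ => sq_nonneg _
  have hsum : c * J ≤ ∑ k, ∫ t in p..q, ‖f k t‖ ^ 2 := by
    have ii : ∀ k ∈ (Finset.univ : Finset ι), IntervalIntegrable (fun t => ‖f k t‖ ^ 2) volume p q :=
      fun k _ => by simp only [hfn]; exact hsq (((hφ k).norm.pow 2).mul (hwc.pow 2))
    rw [hJ, ← intervalIntegral.integral_const_mul, ← intervalIntegral.integral_finsetSum ii]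
    refine intervalIntegral.integral_mono_on hpq.le (hH2.const_mul c) ?_ fun t ht => ?_
    · simpa only [Finset.sum_fn] using IntervalIntegrable.sum Finset.univ ii
    · simp only [hfn, ← Finset.mul_sum, ← Finset.sum_mul, hH2']
      nlinarith [mul_le_mul_of_nonneg_right (hcφ t ht) (mul_nonneg (sq_nonneg (h t)) (sq_nonneg (w t)))]
  have hJ0 : J = 0 := by
    have h1 : c * J ≤ (Fintype.card ι : ℝ) * (C ^ 2 * S * J) :=
      hsum.trans ((Finset.sum_le_sum fun k _ => hk k).trans (le_of_eq (by simp)))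
    have h2 : S * ((Fintype.card ι + 1) * (C ^ 2 + 1)) ≤ c := by
      rw [← le_div_iff₀ (by positivity)]; exact hξS
    have h3 : 0 < c * (1 / ((C ^ 2 + 1) * (Fintype.card ι + 1))) := by positivity
    have h4 : (Fintype.card ι : ℝ) * (C ^ 2 * S) < c := by
      by_cases hS0 : S = 0
      · rw [hS0]; simpa using hc
      · have : 0 < S := lt_of_le_of_ne hSnn (Ne.symm hS0)
        nlinarith [mul_pos this (show (0 : ℝ) < C ^ 2 + Fintype.card ι + 1 by positivity)]
    nlinarith
  rw [hJ, intervalIntegral.integral_of_le hpq.le, setIntegral_eq_zero_iff_of_nonneg_ae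
    (Eventually.of_forall fun t => sq_nonneg _) ((intervalIntegrable_iff_integrableOn_Ioc_of_le hpq.le).1 hH2)] at hJ0
  filter_upwards [hJ0] with t ht
  have : (|h t| * w t) ^ 2 = 0 := ht
  simpa [w, Real.exp_ne_zero] using this

end

end Vale.Agent.P136
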