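import Mathlib
import Vale.Agent.P136.Ode

/-!
# P136: growing shear modes, uniformly in a complex wave number
-/

open MeasureTheory Set Filter
open scoped Topology

namespace Vale.Agent.P136

noncomputable section

/-- The damped part does not increase the energy. -/
theorem inner_damped_le {κ f g : ℂ} (hκ : 0 ≤ κ.re) :
    2 * inner ℝ f (-2 * κ * f + g) ≤ 2 * ‖f‖ * ‖g‖ := by
  rw [inner_add_right]
  have h1 : inner ℝ f (-2 * κ * f) ≤ 0 := by
    rw [Complex.inner]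
    simp
    nlinarith [mul_nonneg hκ (mul_self_nonneg f.re), mul_nonneg hκ (mul_self_nonneg f.im)]
  have h2 := real_inner_le_norm f g
  nlinarith

theorem two_norm_add_le (x y : ℝ) : (x + y) ^ 2 ≤ 2 * (x ^ 2 + y ^ 2) := by
  nlinarith [sq_nonneg (x - y)]

/-- Bounded on an interval. -/
theorem exists_bound_Icc {f : ℝ → ℝ} {p q : ℝ} (hf : ContinuousOn f (Icc p q)) :
    ∃ C, 0 ≤ C ∧ ∀ t ∈ Icc p q, |f t| ≤ C := by
  obtain ⟨C, hC⟩ := isCompact_Icc.exists_bound_of_continuousOn hf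
  exact ⟨max C 0, le_max_right _ _, fun t ht => by
    rw [← Real.norm_eq_abs]; exact (hC t ht).trans (le_max_left _ _)⟩

/-- The normalising exponential. -/
theorem hasDerivAt_expNeg (κ : ℂ) (p t : ℝ) :
    HasDerivAt (fun s : ℝ => Complex.exp (-κ * ((s - p : ℝ) : ℂ)))
      (Complex.exp (-κ * ((t - p : ℝ) : ℂ)) * (-κ)) t := by
  simpa using ((((hasDerivAt_id t).sub_const p).ofReal_comp).const_mul (-κ)).cexp

theorem shear_energy {p q : ℝ} (hpq : p < q) {c dc : ℝ → ℝ} {C₁ C₂ : ℝ} (hC₁ : 0 ≤ C₁) (hC₂ : 0 ≤ C₂)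
    (hc : ∀ t ∈ Icc p q, HasDerivAt c (dc t) t) (hcb : ∀ t ∈ Icc p q, |c t| ≤ C₁)
    (hdcb : ∀ t ∈ Icc p q, |dc t| ≤ C₂) {κ : ℂ} (hκ1 : 1 ≤ ‖κ‖) (hκr : 0 ≤ κ.re) {a b : ℝ → ℂ}
    (hab : ∀ t ∈ Icc p q, HasDerivAt a ((c t : ℂ) * (a t + b t)) t ∧
      HasDerivAt b (-2 * κ * b t + (c t : ℂ) * (a t + b t)) t) (ha0 : a p = 1) (hb0 : b p = 0) :
    ∀ t ∈ Icc p q, ‖b t‖ ≤
      √((1 + C₁ ^ 2) * Real.exp (4 * (4 * (1 + C₁ + C₂) ^ 3) * (q - p))) * (1 + C₁) / ‖κ‖ := by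
  have hκpos : 0 < ‖κ‖ := by linarith
  set K := 4 * (1 + C₁ + C₂) ^ 3 with hK
  set Bd := (1 + C₁ ^ 2) * Real.exp (4 * K * (q - p)) with hBd
  set x : ℝ → ℂ := fun t => κ * b t - (c t : ℂ) * a t / 2 with hx
  have hx' : ∀ t ∈ Icc p q, HasDerivAt x (-2 * κ * x t + ((c t : ℂ) * (κ * b t) -
      ((dc t : ℂ) * a t + (c t : ℂ) * ((c t : ℂ) * (a t + b t))) / 2)) t := by
    intro t ht
    refine (((hab t ht).2.const_mul κ).sub
      (((hc t ht).ofReal_comp.mul (hab t ht).1).div_const 2)).congr_deriv ?_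
    simp only [x]; ring
  have hκb : ∀ t ∈ Icc p q, ‖κ * b t‖ ≤ ‖x t‖ + C₁ * ‖a t‖ := by
    intro t ht
    have e : κ * b t = x t + (c t : ℂ) * a t / 2 := by simp only [x]; ring
    rw [e]
    refine (norm_add_le _ _).trans ?_
    rw [norm_div, norm_mul, Complex.norm_real, Real.norm_eq_abs, Complex.norm_two]
    nlinarith [mul_le_mul_of_nonneg_right (hcb t ht) (norm_nonneg (a t)),
      mul_nonneg hC₁ (norm_nonneg (a t))]
  have hbb : ∀ t ∈ Icc p q, ‖b t‖ ≤ ‖x t‖ + C₁ * ‖a t‖ := fun t ht => by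
    refine le_trans ?_ (hκb t ht)
    rw [norm_mul]
    exact le_mul_of_one_le_left (norm_nonneg _) hκ1
  have hN : ∀ t ∈ Icc p q, ‖a t‖ ^ 2 + ‖x t‖ ^ 2 ≤ Bd := by
    intro t ht
    have h := gronwall_le (N := fun t => ‖a t‖ ^ 2 + ‖x t‖ ^ 2) (K := 4 * K) (p := p) (q := q)
      (fun s hs => ((hab s hs).1.norm_sq).add ((hx' s hs).norm_sq)) (fun s hs => ?_) ht
    · have h0 : ‖a p‖ ^ 2 + ‖x p‖ ^ 2 ≤ 1 + C₁ ^ 2 := by
        have := hcb p (left_mem_Icc.2 hpq.le)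
        have hxp : ‖x p‖ ≤ C₁ := by
          simp only [x, ha0, hb0]; simp [Complex.norm_real]; linarith [abs_nonneg (c p)]
        rw [ha0, norm_one]; nlinarith [pow_le_pow_left₀ (norm_nonneg _) hxp 2]
      refine h.trans (mul_le_mul h0 (Real.exp_le_exp.2 ?_) (Real.exp_pos _).le (by positivity))
      exact mul_le_mul_of_nonneg_left (by linarith [ht.2]) (by positivity)
    set A := ‖a s‖; set X := ‖x s‖
    have hAX : 0 ≤ A ∧ 0 ≤ X := ⟨norm_nonneg _, norm_nonneg _⟩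
    have hB := hbb s hs
    have hKB := hκb s hs
    have hab_le : ‖a s + b s‖ ≤ (1 + C₁) * (A + X) := by
      refine (norm_add_le _ _).trans ?_; nlinarith
    have hda : ‖(c s : ℂ) * (a s + b s)‖ ≤ K * (A + X) := by
      rw [norm_mul, Complex.norm_real, Real.norm_eq_abs]
      refine (mul_le_mul (hcb s hs) hab_le (norm_nonneg _) hC₁).trans ?_
      rw [← mul_assoc]
      refine mul_le_mul_of_nonneg_right ?_ (by positivity)
      rw [hK]; nlinarith [sq_nonneg (C₁ + C₂)]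
    have hdx : ‖(c s : ℂ) * (κ * b s) -
        ((dc s : ℂ) * a s + (c s : ℂ) * ((c s : ℂ) * (a s + b s))) / 2‖ ≤ K * (A + X) := by
      refine (norm_sub_le _ _).trans ?_
      rw [norm_div, Complex.norm_two]
      have h1 : ‖(c s : ℂ) * (κ * b s)‖ ≤ C₁ * (1 + C₁) * (A + X) := by
        rw [norm_mul, Complex.norm_real, Real.norm_eq_abs, mul_assoc]
        refine mul_le_mul (hcb s hs) (hKB.trans ?_) (norm_nonneg _) hC₁; nlinarith
      have h2 : ‖(dc s : ℂ) * a s + (c s : ℂ) * ((c s : ℂ) * (a s + b s))‖ ≤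
          (C₂ + C₁ * C₁ * (1 + C₁)) * (A + X) := by
        refine (norm_add_le _ _).trans ?_
        simp only [norm_mul, Complex.norm_real, Real.norm_eq_abs]
        have p1 : |dc s| * A ≤ C₂ * (A + X) := mul_le_mul (hdcb s hs) (by linarith) hAX.1 hC₂
        have p2 : |c s| * (|c s| * ‖a s + b s‖) ≤ C₁ * (C₁ * ((1 + C₁) * (A + X))) :=
          mul_le_mul (hcb s hs) (mul_le_mul (hcb s hs) hab_le (norm_nonneg _) hC₁) (by positivity) hC₁
        nlinarith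
      have : C₁ * (1 + C₁) + (C₂ + C₁ * C₁ * (1 + C₁)) / 2 ≤ K := by
        rw [hK]; nlinarith [pow_nonneg hC₁ 3, pow_nonneg hC₂ 3, mul_nonneg hC₁ hC₂, sq_nonneg C₁, sq_nonneg C₂]
      calc _ ≤ C₁ * (1 + C₁) * (A + X) + (C₂ + C₁ * C₁ * (1 + C₁)) * (A + X) / 2 := by linarith
        _ = (C₁ * (1 + C₁) + (C₂ + C₁ * C₁ * (1 + C₁)) / 2) * (A + X) := by ring
        _ ≤ _ := mul_le_mul_of_nonneg_right this (by linarith)
    have i1 := real_inner_le_norm (a s) ((c s : ℂ) * (a s + b s))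
    have i2 := inner_damped_le (f := x s) (g := (c s : ℂ) * (κ * b s) -
      ((dc s : ℂ) * a s + (c s : ℂ) * ((c s : ℂ) * (a s + b s))) / 2) hκr
    have hKnn : 0 ≤ K := by positivity
    nlinarith [mul_le_mul_of_nonneg_left hda hAX.1, mul_le_mul_of_nonneg_left hdx hAX.2,
      two_norm_add_le A X]
  intro t ht
  rw [le_div_iff₀ hκpos, mul_comm, ← norm_mul]
  refine (hκb t ht).trans ?_
  have hA : ‖a t‖ ≤ √Bd := Real.le_sqrt_of_sq_le (by linarith [hN t ht, sq_nonneg ‖x t‖])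
  have hX : ‖x t‖ ≤ √Bd := Real.le_sqrt_of_sq_le (by linarith [hN t ht, sq_nonneg ‖a t‖])
  nlinarith

theorem shear_amplitude {p q : ℝ} (hpq : p < q) {m dm c : ℝ → ℝ} (hm : ∀ t, HasDerivAt m (dm t) t)
    (hpos : ∀ t ∈ Icc p q, 0 < m t) (hcval : ∀ t ∈ Icc p q, c t = dm t / (2 * m t))
    {C₁ Cb Cs Ci : ℝ} (hC₁ : 0 ≤ C₁) (hCb : 0 ≤ Cb) (hCs : 0 ≤ Cs) (hCi : 0 ≤ Ci)
    (hcb : ∀ t ∈ Icc p q, |c t| ≤ C₁) (hsb : ∀ t ∈ Icc p q, |√(m t) / √(m p)| ≤ Cs)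
    (hib : ∀ t ∈ Icc p q, |√(m p) / √(m t)| ≤ Ci) {κ : ℂ} (hκpos : 0 < ‖κ‖) {a b : ℝ → ℂ}
    (hab : ∀ t ∈ Icc p q, HasDerivAt a ((c t : ℂ) * (a t + b t)) t) (ha0 : a p = 1)
    (hb1 : ∀ t ∈ Icc p q, ‖b t‖ ≤ Cb / ‖κ‖) :
    ∀ t ∈ Icc p q,
      ‖a t - ((√(m t) / √(m p) : ℝ) : ℂ)‖ ≤ Cs * (Ci * (C₁ * Cb) * (q - p) / ‖κ‖) := by
  have hne : ∀ t ∈ Icc p q, m t ≠ 0 := fun t ht => (hpos t ht).ne'
  set u : ℝ → ℂ := fun t => a t * ((√(m p) / √(m t) : ℝ) : ℂ) with hu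
  have hu' : ∀ t ∈ Icc p q, HasDerivAt u
      ((c t : ℂ) * b t * ((√(m p) / √(m t) : ℝ) : ℂ)) t := by
    intro t ht
    have hs : √(m t) ≠ 0 := (Real.sqrt_pos.2 (hpos t ht)).ne'
    have hr : HasDerivAt (fun s => √(m p) / √(m s)) (-(c t) * (√(m p) / √(m t))) t := by
      refine ((hasDerivAt_const t (√(m p))).div ((hm t).sqrt (hne t ht)) hs).congr_deriv ?_
      rw [hcval t ht]
      have := Real.sq_sqrt (hpos t ht).le
      field_simp
      have hmt := hne t ht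
      rw [this]; field_simp; ring
    refine ((hab t ht).mul hr.ofReal_comp).congr_deriv ?_
    push_cast; ring
  have hdiff : ∀ t ∈ Icc p q, ‖u t - 1‖ ≤ Ci * (C₁ * Cb) * (q - p) / ‖κ‖ := by
    intro t ht
    have hup : u p = 1 := by
      simp [u, ha0, (Real.sqrt_pos.2 (hpos p (left_mem_Icc.2 hpq.le))).ne']
    have h := (convex_Icc p q).norm_image_sub_le_of_norm_hasDerivWithin_le
      (f := u) (C := Ci * (C₁ * Cb) / ‖κ‖) (fun s hs => (hu' s hs).hasDerivWithinAt) (fun s hs => ?_)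
      (left_mem_Icc.2 hpq.le) ht
    · rw [hup] at h
      refine h.trans ?_
      rw [Real.norm_eq_abs, abs_of_nonneg (sub_nonneg.2 ht.1)]
      refine (mul_le_mul_of_nonneg_left (sub_le_sub_right ht.2 p) (by positivity)).trans
        (le_of_eq ?_)
      ring
    · rw [norm_mul, norm_mul, Complex.norm_real, Complex.norm_real, Real.norm_eq_abs, Real.norm_eq_abs]
      calc |c s| * ‖b s‖ * |√(m p) / √(m s)| ≤ C₁ * (Cb / ‖κ‖) * Ci :=
            mul_le_mul (mul_le_mul (hcb s hs) (hb1 s hs) (norm_nonneg _) hC₁) (hib s hs)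
              (abs_nonneg _) (by positivity)
        _ = _ := by ring
  intro t ht
  have h1 := (Real.sqrt_pos.2 (hpos t ht)).ne'
  have h2 := (Real.sqrt_pos.2 (hpos p (left_mem_Icc.2 hpq.le))).ne'
  have e : a t - ((√(m t) / √(m p) : ℝ) : ℂ) = ((√(m t) / √(m p) : ℝ) : ℂ) * (u t - 1) := by
    have h1' : ((√(m t) : ℝ) : ℂ) ≠ 0 := Complex.ofReal_ne_zero.2 h1
    have h2' : ((√(m p) : ℝ) : ℂ) ≠ 0 := Complex.ofReal_ne_zero.2 h2
    simp only [u]; push_cast; field_simp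
  rw [e, norm_mul, Complex.norm_real, Real.norm_eq_abs]
  exact mul_le_mul (hsb t ht) (hdiff t ht) (norm_nonneg _) hCs

theorem shear_solution {p q : ℝ} (hpq : p < q) {m dm d2m : ℝ → ℝ}
    (hm : ∀ t, HasDerivAt m (dm t) t) (hdm : ∀ t, HasDerivAt dm (d2m t) t) (hd2m : Continuous d2m)
    (hpos : ∀ t ∈ Icc p q, 0 < m t) :
    ∃ C, ∀ κ : ℂ, 1 ≤ ‖κ‖ → 0 ≤ κ.re → ∃ v v' r r' : ℝ → ℂ,
      (∀ t, HasDerivAt v (v' t) t) ∧ Continuous v' ∧ (∀ t, HasDerivAt r (r' t) t) ∧ Continuous r' ∧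
      (∀ t ∈ Icc p q, v' t = κ * r t / (m t : ℂ) ∧ r' t = κ * (m t : ℂ) * v t ∧
        ‖Complex.exp (-κ * ((t - p : ℝ) : ℂ)) * v t -
          ((√(m t) / √(m p) / (2 * m t) : ℝ) : ℂ)‖ ≤ C / ‖κ‖ ∧
        ‖Complex.exp (-κ * ((t - p : ℝ) : ℂ)) * r t -
          ((√(m t) / √(m p) / 2 : ℝ) : ℂ)‖ ≤ C / ‖κ‖) := by
  have hmc : Continuous m := continuous_iff_continuousAt.2 fun t => (hm t).continuousAt
  have hdmc : Continuous dm := continuous_iff_continuousAt.2 fun t => (hdm t).continuousAt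
  have hne : ∀ t ∈ Icc p q, m t ≠ 0 := fun t ht => (hpos t ht).ne'
  obtain ⟨c, hcdef⟩ : ∃ c : ℝ → ℝ, c = fun t => dm t / (2 * m t) := ⟨_, rfl⟩
  obtain ⟨dc, hdcdef⟩ : ∃ dc : ℝ → ℝ,
      dc = fun t => (d2m t * (2 * m t) - dm t * (2 * dm t)) / (2 * m t) ^ 2 := ⟨_, rfl⟩
  have hc : ∀ t ∈ Icc p q, HasDerivAt c (dc t) t := fun t ht => by
    subst hcdef hdcdef
    exact (hdm t).div ((hm t).const_mul 2) (by simpa using hne t ht)
  have hcc : ContinuousOn c (Icc p q) := fun t ht => (hc t ht).continuousAt.continuousWithinAt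
  have hdcc : ContinuousOn dc (Icc p q) := by
    subst hdcdef
    refine ContinuousOn.div (by fun_prop) (by fun_prop) fun t ht => ?_
    simpa using hne t ht
  obtain ⟨C₁, hC₁, hcb⟩ := exists_bound_Icc hcc
  obtain ⟨C₂, hC₂, hdcb⟩ := exists_bound_Icc hdcc
  obtain ⟨Cm, hCm, hmb⟩ := exists_bound_Icc (f := fun t => 1 / m t)
    (continuousOn_const.div hmc.continuousOn hne)
  obtain ⟨Cs, hCs, hsb⟩ := exists_bound_Icc (f := fun t => √(m t) / √(m p))
    (Real.continuous_sqrt.comp hmc |>.div_const _).continuousOn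
  obtain ⟨Ci, hCi, hib⟩ := exists_bound_Icc (f := fun t => √(m p) / √(m t))
    (continuousOn_const.div (Real.continuous_sqrt.comp hmc).continuousOn
      fun t ht => (Real.sqrt_pos.2 (hpos t ht)).ne')
  set K := 4 * (1 + C₁ + C₂) ^ 3 with hK
  set Bd := (1 + C₁ ^ 2) * Real.exp (4 * K * (q - p)) with hBd
  set Cb := √Bd * (1 + C₁) with hCb
  refine ⟨(Cs * (Ci * (C₁ * Cb) * (q - p)) + Cb) * (Cm + 1), fun κ hκ1 hκr => ?_⟩
  have hκ0 : κ ≠ 0 := by intro h; rw [h, norm_zero] at hκ1; linarith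
  have hκpos : 0 < ‖κ‖ := norm_pos_iff.2 hκ0
  let M : ℝ → Fin 2 → Fin 2 → ℂ := fun t => ![![0, κ / (m t : ℂ)], ![κ * (m t : ℂ), 0]]
  have hM : ∀ i j, ContinuousOn (fun t => M t i j) (Icc p q) := by
    intro i j
    fin_cases i <;> fin_cases j <;> simp only [M]
    · exact continuousOn_const
    · exact continuousOn_const.div (Complex.continuous_ofReal.comp hmc).continuousOn
        fun t ht => Complex.ofReal_ne_zero.2 (hne t ht)
    · exact continuousOn_const.mul (Complex.continuous_ofReal.comp hmc).continuousOn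
    · exact continuousOn_const
  obtain ⟨Y, Y', hY, hY', hY0, hYeq⟩ :=
    exists_linear_solution hpq.le hM ![((1 / (2 * m p) : ℝ) : ℂ), (1 / 2 : ℂ)]
  refine ⟨Y 0, Y' 0, Y 1, Y' 1, hY 0, hY' 0, hY 1, hY' 1, ?_⟩
  set a : ℝ → ℂ := fun t => Complex.exp (-κ * ((t - p : ℝ) : ℂ)) * ((m t : ℂ) * Y 0 t + Y 1 t) with ha
  set b : ℝ → ℂ := fun t => Complex.exp (-κ * ((t - p : ℝ) : ℂ)) * ((m t : ℂ) * Y 0 t - Y 1 t) with hb
  have heq : ∀ t ∈ Icc p q, Y' 0 t = κ * Y 1 t / (m t : ℂ) ∧ Y' 1 t = κ * (m t : ℂ) * Y 0 t := by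
    intro t ht
    constructor
    · rw [hYeq t ht 0]; simp [M, Fin.sum_univ_two]; ring
    · rw [hYeq t ht 1]; simp [M, Fin.sum_univ_two]
  have hab : ∀ t ∈ Icc p q, HasDerivAt a ((c t : ℂ) * (a t + b t)) t ∧
      HasDerivAt b (-2 * κ * b t + (c t : ℂ) * (a t + b t)) t := by
    intro t ht
    obtain ⟨e0, e1⟩ := heq t ht
    have hm0 : (m t : ℂ) ≠ 0 := Complex.ofReal_ne_zero.2 (hne t ht)
    have hct : (c t : ℂ) = (dm t : ℂ) / (2 * (m t : ℂ)) := by rw [hcdef]; push_cast; ring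
    constructor
    · refine ((hasDerivAt_expNeg κ p t).mul (((hm t).ofReal_comp.mul (hY 0 t)).add (hY 1 t))).congr_deriv ?_
      rw [e0, e1, hct, ha, hb]; simp only [Pi.mul_apply, Pi.add_apply]; field_simp; ring
    · refine ((hasDerivAt_expNeg κ p t).mul (((hm t).ofReal_comp.mul (hY 0 t)).sub (hY 1 t))).congr_deriv ?_
      rw [e0, e1, hct, ha, hb]; simp only [Pi.mul_apply, Pi.sub_apply]; field_simp; ring
  have ha0 : a p = 1 := by
    have : (m p : ℂ) ≠ 0 := Complex.ofReal_ne_zero.2 (hne p (left_mem_Icc.2 hpq.le))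
    simp [a, hY0]; field_simp; ring
  have hb0 : b p = 0 := by
    have : (m p : ℂ) ≠ 0 := Complex.ofReal_ne_zero.2 (hne p (left_mem_Icc.2 hpq.le))
    simp [b, hY0]; field_simp; ring
  have hb1 := shear_energy hpq hC₁ hC₂ hc hcb hdcb hκ1 hκr hab ha0 hb0
  have haest := shear_amplitude hpq hm hpos (fun t _ => by rw [hcdef]) hC₁ (by positivity) hCs hCi hcb
    hsb hib hκpos (fun t ht => (hab t ht).1) ha0 hb1
  intro t ht
  refine ⟨(heq t ht).1, (heq t ht).2, ?_, ?_⟩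
  · have hm0 : (m t : ℂ) ≠ 0 := Complex.ofReal_ne_zero.2 (hne t ht)
    have e : Complex.exp (-κ * ((t - p : ℝ) : ℂ)) * Y 0 t -
        ((√(m t) / √(m p) / (2 * m t) : ℝ) : ℂ) =
        ((1 / (2 * m t) : ℝ) : ℂ) * ((a t - ((√(m t) / √(m p) : ℝ) : ℂ)) + b t) := by
      simp only [a, b]; push_cast; field_simp; ring
    rw [e, norm_mul, Complex.norm_real, Real.norm_eq_abs]
    have hq : |1 / (2 * m t)| ≤ Cm + 1 := by
      have h := hmb t ht
      simp only [abs_div, abs_one, abs_mul, abs_two] at h ⊢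
      rw [one_div] at h
      rw [one_div, mul_inv]
      linarith [inv_nonneg.2 (abs_nonneg (m t))]
    refine (mul_le_mul hq ((norm_add_le _ _).trans (add_le_add (haest t ht) (hb1 t ht)))
      (norm_nonneg _) (by positivity)).trans (le_of_eq ?_)
    rw [hCb, hBd, hK]; field_simp
  · have e : Complex.exp (-κ * ((t - p : ℝ) : ℂ)) * Y 1 t - ((√(m t) / √(m p) / 2 : ℝ) : ℂ) =
        (1 / 2 : ℂ) * ((a t - ((√(m t) / √(m p) : ℝ) : ℂ)) - b t) := by
      simp only [a, b]; push_cast; ring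
    rw [e, norm_mul]
    have hq : ‖(1 / 2 : ℂ)‖ ≤ Cm + 1 := by simp; linarith
    refine (mul_le_mul hq ((norm_sub_le _ _).trans (add_le_add (haest t ht) (hb1 t ht)))
      (norm_nonneg _) (by positivity)).trans (le_of_eq ?_)
    rw [hCb, hBd, hK]; field_simp

end

end Vale.Agent.P136
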