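import Mathlib
import Vale.Agent.P136.Green
import Vale.Agent.P136.Laplace

/-!
# P136: slice areas and the passage from exact identities to perturbed transforms
-/

open MeasureTheory Set Filter
open scoped Topology

namespace Vale.Agent.P136

noncomputable section

/-- The area of the slice at height `t`. -/
def sliceArea (Ω : Set Space) (t : ℝ) : ℝ :=
  (volume {y : Fin 2 → ℝ | (2 : Fin 3).insertNth t y ∈ Ω}).toReal

theorem sliceArea_nonneg (Ω : Set Space) (t : ℝ) : 0 ≤ sliceArea Ω t := ENNReal.toReal_nonneg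

theorem sliceArea_measurable {Ω : Set Space} (hΩ : IsOpen Ω) : Measurable (sliceArea Ω) := by
  have hm : MeasurableSet {z : ℝ × (Fin 2 → ℝ) | (2 : Fin 3).insertNth z.1 z.2 ∈ Ω} :=
    hΩ.measurableSet.preimage (by fun_prop)
  exact (measurable_measure_prodMk_left hm).ennreal_toReal

theorem slice_subset_ball {Ω : Set Space} {R : ℝ} (hR : ∀ x ∈ Ω, ‖x‖ ≤ R) (t : ℝ) :
    {y : Fin 2 → ℝ | (2 : Fin 3).insertNth t y ∈ Ω} ⊆ Metric.closedBall 0 R := by
  intro y hy
  have h := hR _ hy
  rw [Metric.mem_closedBall, dist_zero_right,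
    pi_norm_le_iff_of_nonneg ((norm_nonneg _).trans h)]
  intro i
  have := (norm_le_pi_norm ((2 : Fin 3).insertNth (α := fun _ => ℝ) t y) ((2 : Fin 3).succAbove i)).trans h
  simpa using this

theorem sliceArea_bounded {Ω : Set Space} (hb : Bornology.IsBounded Ω) :
    ∃ B, 0 ≤ B ∧ ∀ t, |sliceArea Ω t| ≤ B := by
  obtain ⟨R, hR⟩ := hb.exists_norm_le
  refine ⟨(volume (Metric.closedBall (0 : Fin 2 → ℝ) R)).toReal, ENNReal.toReal_nonneg, fun t => ?_⟩
  rw [abs_of_nonneg (sliceArea_nonneg Ω t)]
  exact ENNReal.toReal_mono measure_closedBall_lt_top.ne (measure_mono (slice_subset_ball hR t))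

theorem sliceArea_pos {Ω : Set Space} (hΩ : IsOpen Ω) (hb : Bornology.IsBounded Ω) {x : Space}
    (hx : x ∈ Ω) : 0 < sliceArea Ω (x 2) := by
  obtain ⟨R, hR⟩ := hb.exists_norm_le
  have ho : IsOpen {y : Fin 2 → ℝ | (2 : Fin 3).insertNth (x 2) y ∈ Ω} := hΩ.preimage (by fun_prop)
  have hne : {y : Fin 2 → ℝ | (2 : Fin 3).insertNth (x 2) y ∈ Ω}.Nonempty :=
    ⟨fun i => x ((2 : Fin 3).succAbove i), by
      show (2 : Fin 3).insertNth (x 2) (Fin.removeNth 2 x) ∈ Ω
      rw [Fin.insertNth_self_removeNth]; exact hx⟩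
  exact ENNReal.toReal_pos (ho.measure_pos volume hne).ne'
    ((measure_mono (slice_subset_ball hR (x 2))).trans_lt measure_closedBall_lt_top).ne

/-- Integrals of functions of the height. -/
theorem integral_height {Ω : Set Space} (hΩ : IsOpen Ω) (hb : Bornology.IsBounded Ω) {p q : ℝ}
    (hI : ∀ x ∈ Ω, x 2 ∈ Ioo p q) {P : ℝ → ℂ} (hP : Continuous P) :
    ∫ x in Ω, P (x 2) = ∫ t in p..q, (sliceArea Ω t : ℂ) * P t := by
  have hmp := (volume_preserving_piFinSuccAbove (fun _ : Fin 3 => ℝ) (2 : Fin 3)).symm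
  have hF : Continuous fun x : Space => P (x 2) := hP.comp (continuous_apply 2)
  have hint : Integrable (Ω.indicator fun x : Space => P (x 2)) := by
    rw [integrable_indicator_iff hΩ.measurableSet]
    exact (hF.continuousOn.integrableOn_compact hb.isCompact_closure).mono_set subset_closure
  have h1 : (∫ x in Ω, P (x 2)) = ∫ z : ℝ × (Fin 2 → ℝ),
      Ω.indicator (fun x : Space => P (x 2)) ((2 : Fin 3).insertNth z.1 z.2) := by
    rw [← integral_indicator hΩ.measurableSet, ← hmp.integral_comp' (Ω.indicator fun x : Space => P (x 2))]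
    rfl
  have h2 : Integrable (fun z : ℝ × (Fin 2 → ℝ) =>
      Ω.indicator (fun x : Space => P (x 2)) ((2 : Fin 3).insertNth z.1 z.2)) (volume.prod volume) :=
    (hmp.integrable_comp_emb (MeasurableEquiv.measurableEmbedding _)).2 hint
  rw [h1, Measure.volume_eq_prod, integral_prod _ h2,
    intervalIntegral.integral_eq_integral_of_support_subset (f := fun t => (sliceArea Ω t : ℂ) * P t) ?_]
  · refine integral_congr_ae (Eventually.of_forall fun t => ?_)
    have ho : IsOpen {y : Fin 2 → ℝ | (2 : Fin 3).insertNth t y ∈ Ω} := hΩ.preimage (by fun_prop)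
    have e : (fun y : Fin 2 → ℝ => Ω.indicator (fun x : Space => P (x 2)) ((2 : Fin 3).insertNth t y)) =
        {y : Fin 2 → ℝ | (2 : Fin 3).insertNth t y ∈ Ω}.indicator fun _ => P t := by
      funext y
      by_cases hy : (2 : Fin 3).insertNth t y ∈ Ω <;>
        simp [Set.indicator_apply, hy, Fin.insertNth_apply_same]
    simp only [e, integral_indicator_const _ ho.measurableSet, sliceArea, measureReal_def]
    rw [Complex.real_smul]
  · intro t ht
    by_contra hnot
    apply ht
    have : {y : Fin 2 → ℝ | (2 : Fin 3).insertNth t y ∈ Ω} = ∅ := by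
      refine eq_empty_of_forall_notMem fun y hy => hnot ?_
      have := hI _ hy
      rw [Fin.insertNth_apply_same] at this
      exact Ioo_subset_Ioc_self this
    simp [sliceArea, this]

/-- Clamp a function to an interval. -/
def clampF {α : Type*} (p q : ℝ) (f : ℝ → α) (t : ℝ) : α := f (max p (min q t))

theorem clampF_eq {α : Type*} {p q : ℝ} (f : ℝ → α) {t : ℝ} (ht : t ∈ Icc p q) : clampF p q f t = f t := by
  rw [clampF, min_eq_right ht.2, max_eq_right ht.1]

theorem continuous_clampF {α : Type*} [TopologicalSpace α] {p q : ℝ} (hpq : p ≤ q) {f : ℝ → α}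
    (hf : ContinuousOn f (Icc p q)) : Continuous (clampF p q f) :=
  hf.comp_continuous (continuous_const.max (continuous_const.min continuous_id))
    fun _ => ⟨le_max_left _ _, max_le hpq (min_le_left _ _)⟩

/-- The product of two first-order approximations. -/
theorem product_bound {X Y x y : ℂ} {B N M : ℝ} (hN : 1 ≤ N) (hX : ‖X - x‖ ≤ B / N)
    (hY : ‖Y - y‖ ≤ B / N) (hx : ‖x‖ ≤ M) (hy : ‖y‖ ≤ M) (hB : 0 ≤ B) :
    ‖X * Y - x * y‖ ≤ (B * (M + B) + M * B) / N := by
  have e : X * Y - x * y = (X - x) * Y + x * (Y - y) := by ring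
  rw [e]
  have hYb : ‖Y‖ ≤ M + B := by
    have := norm_sub_norm_le Y y
    have : B / N ≤ B := div_le_self hB hN
    linarith
  refine (norm_add_le _ _).trans ?_
  rw [norm_mul, norm_mul, add_div, mul_div_right_comm B, mul_div_assoc M]
  exact add_le_add (mul_le_mul hX hYb (norm_nonneg _) (by positivity))
    (mul_le_mul hx hY (norm_nonneg _) ((norm_nonneg _).trans hx))

/-- An exact identity with the true profile bounds the transform of the limiting profile. -/
theorem approx_bound {p q : ℝ} (hpq : p ≤ q) {h : ℝ → ℝ} {Bh : ℝ} (hm : Measurable h)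
    (hB : ∀ t, |h t| ≤ Bh) {φ R : ℝ → ℂ} (hφ : Continuous φ) (hR : Continuous R) {κ : ℂ} {K : ℝ}
    (hclose : ∀ t ∈ Icc p q, ‖R t - φ t‖ ≤ K)
    (hzero : ∫ t in p..q, (h t : ℂ) * R t * Complex.exp (2 * κ * t) = 0) :
    ‖∫ t in p..q, (h t : ℂ) * φ t * Complex.exp (2 * κ * t)‖ ≤
      K * ∫ t in p..q, |h t| * Real.exp (2 * κ.re * t) := by
  have hint : ∀ {F : ℝ → ℂ}, Continuous F →
      IntervalIntegrable (fun t => (h t : ℂ) * F t) volume p q := by
    intro F hF
    rw [intervalIntegrable_iff_integrableOn_Ioc_of_le hpq]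
    exact ((hF.integrableOn_Icc (a := p) (b := q)).mono_set Ioc_subset_Icc_self).bdd_mul (c := Bh)
      (Complex.continuous_ofReal.measurable.comp hm).aestronglyMeasurable
      (Eventually.of_forall fun t => by
        simp only [Function.comp_apply, Complex.norm_real, Real.norm_eq_abs]; exact hB t)
  have he : Continuous fun t : ℝ => Complex.exp (2 * κ * t) := by fun_prop
  have e : ∫ t in p..q, (h t : ℂ) * φ t * Complex.exp (2 * κ * t) =
      ∫ t in p..q, (h t : ℂ) * ((φ t - R t) * Complex.exp (2 * κ * t)) := by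
    have := intervalIntegral.integral_sub (hint (hφ.mul he)) (hint (hR.mul he))
    simp only [Pi.mul_apply, ← mul_assoc, sub_mul, mul_sub] at this ⊢
    rw [this, hzero, sub_zero]
  rw [e, ← intervalIntegral.integral_const_mul]
  refine intervalIntegral.norm_integral_le_of_norm_le hpq (Eventually.of_forall fun t ht => ?_) ?_
  · rw [norm_mul, norm_mul, Complex.norm_real, Real.norm_eq_abs, Complex.norm_exp]
    have : (2 * κ * (t : ℂ)).re = 2 * κ.re * t := by simp
    rw [this, norm_sub_rev]
    calc |h t| * (‖R t - φ t‖ * Real.exp (2 * κ.re * t)) ≤ |h t| * (K * Real.exp (2 * κ.re * t)) :=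
          mul_le_mul_of_nonneg_left (mul_le_mul_of_nonneg_right (hclose t (Ioc_subset_Icc_self ht))
            (Real.exp_pos _).le) (abs_nonneg _)
      _ = _ := by ring
  · refine IntervalIntegrable.const_mul ?_ K
    rw [intervalIntegrable_iff_integrableOn_Ioc_of_le hpq]
    exact ((Continuous.integrableOn_Icc (a := p) (b := q)
      (show Continuous fun t : ℝ => Real.exp (2 * κ.re * t) by fun_prop)).mono_set Ioc_subset_Icc_self).bdd_mul
      (c := Bh) hm.abs.aestronglyMeasurable
      (Eventually.of_forall fun t => by rw [Real.norm_eq_abs, abs_abs]; exact hB t)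

/-- A function with vanishing product with a positive weight vanishes. -/
theorem eq_zero_of_weighted_ae {p q : ℝ} {w f : ℝ → ℝ} {U : Set ℝ} (hU : IsOpen U) (hUI : U ⊆ Ioo p q)
    (hw : ∀ t ∈ U, 0 < w t) (hf : Continuous f)
    (h : ∀ᵐ t ∂volume.restrict (Ioc p q), w t * f t = 0) : ∀ t ∈ U, f t = 0 := by
  by_contra hne
  push Not at hne
  obtain ⟨t₀, ht₀, hft⟩ := hne
  set V := U ∩ {t | f t ≠ 0} with hV
  have hVo : IsOpen V := hU.inter (isOpen_ne_fun hf continuous_const)
  have hpos : 0 < volume V := hVo.measure_pos volume ⟨t₀, ht₀, hft⟩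
  have hzero : volume.restrict (Ioc p q) V = 0 := by
    refine measure_mono_null (fun t ht => ?_) (ae_iff.1 h)
    exact mul_ne_zero (hw t ht.1).ne' ht.2
  rw [Measure.restrict_apply hVo.measurableSet,
    inter_eq_self_of_subset_left (fun t ht => Ioo_subset_Ioc_self (hUI ht.1))] at hzero
  exact hpos.ne' hzero

end

end Vale.Agent.P136
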