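import Mathlib
import Vale.Agent.P136.Modes
import Vale.Agent.P136.Shear
import Vale.Agent.P136.Weights

/-!
# P136: the shear modulus of a layered body is determined
-/

open MeasureTheory Set Filter
open scoped Topology

namespace Vale.Agent.P136

noncomputable section

/-- The height range of a body. -/
structure Range (Ω : Set Space) (p q : ℝ) : Prop where
  isOpen : IsOpen Ω
  bounded : Bornology.IsBounded Ω
  lt : p < q
  mem : ∀ x ∈ Ω, x 2 ∈ Ioo p q
  dense : Icc p q ⊆ closure ((fun x : Space => x 2) '' Ω)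
  attained : ∀ t ∈ Icc p q, ∃ x ∈ closure Ω, x 2 = t

theorem exists_range {Ω : Set Space} (hΩ : IsOpen Ω) (hconn : IsConnected Ω)
    (hb : Bornology.IsBounded Ω) : ∃ p q, Range Ω p q := by
  set U := (fun x : Space => x 2) '' Ω with hU
  have hc : Continuous fun x : Space => x 2 := continuous_apply 2
  have hUo : IsOpen U := isOpenMap_eval (X := fun _ : Fin 3 => ℝ) 2 Ω hΩ
  have hUc : IsConnected U := hconn.image _ hc.continuousOn
  have hK : IsCompact ((fun x : Space => x 2) '' closure Ω) := hb.isCompact_closure.image hc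
  have hUK : U ⊆ (fun x : Space => x 2) '' closure Ω := image_mono subset_closure
  have hbb : BddBelow U := hK.bddBelow.mono hUK
  have hba : BddAbove U := hK.bddAbove.mono hUK
  have hIoo : Ioo (sInf U) (sSup U) ⊆ U := hUc.Ioo_csInf_csSup_subset hbb hba
  have hmem : ∀ t ∈ U, t ∈ Ioo (sInf U) (sSup U) := by
    intro t ht
    obtain ⟨ε, hε, he⟩ := Metric.isOpen_iff.1 hUo t ht
    have h1 : t - ε / 2 ∈ U := he (by rw [Metric.mem_ball, Real.dist_eq, abs_lt]; constructor <;> linarith)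
    have h2 : t + ε / 2 ∈ U := he (by rw [Metric.mem_ball, Real.dist_eq, abs_lt]; constructor <;> linarith)
    exact ⟨by linarith [csInf_le hbb h1], by linarith [le_csSup hba h2]⟩
  obtain ⟨t₀, ht₀⟩ := hUc.nonempty
  have hlt : sInf U < sSup U := (hmem t₀ ht₀).1.trans (hmem t₀ ht₀).2
  have hd : Icc (sInf U) (sSup U) ⊆ closure U := by
    rw [← closure_Ioo hlt.ne]; exact closure_mono hIoo
  exact ⟨sInf U, sSup U,
    { isOpen := hΩ
      bounded := hb
      lt := hlt
      mem := fun x hx => hmem _ (mem_image_of_mem _ hx)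
      dense := hd
      attained := fun t ht => closure_minimal hUK hK.isClosed (hd ht) }⟩

theorem Range.Icc_of_mem {Ω : Set Space} {p q : ℝ} (h : Range Ω p q) {x : Space} (hx : x ∈ Ω) :
    x 2 ∈ Icc p q := Ioo_subset_Icc_self (h.mem x hx)

variable {Ω : Set Space} {p q : ℝ}

theorem shear_mode (hr : Range Ω p q) {l m : ℝ → ℝ} (hl : Continuous l) (hm : Continuous m)
    (hm0 : ∀ t ∈ Icc p q, m t ≠ 0) {κ ε : ℂ} (hε : ε * ε = -1) {v v' r r' : ℝ → ℂ}
    (hv : ∀ t, HasDerivAt v (v' t) t) (hv' : Continuous v') (hrd : ∀ t, HasDerivAt r (r' t) t)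
    (hr' : Continuous r') (he : ∀ t ∈ Icc p q, v' t = κ * r t / (m t : ℂ) ∧ r' t = κ * (m t : ℂ) * v t) :
    IsCWeak Ω (fun x => l (x 2)) (fun x => m (x 2)) (modeField (ε * κ) ![0, v, 0])
      (modeGrad (ε * κ) ![0, v, 0] ![0, v', 0]) := by
  have hvc : Continuous v := continuous_iff_continuousAt.2 fun t => (hv t).continuousAt
  have hrc : Continuous r := continuous_iff_continuousAt.2 fun t => (hrd t).continuousAt
  have hmC : Continuous fun t => (m t : ℂ) := Complex.continuous_ofReal.comp hm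
  have hY : ∀ i t, HasDerivAt ((![0, v, 0] : Fin 3 → ℝ → ℂ) i) ((![0, v', 0] : Fin 3 → ℝ → ℂ) i t) t := by
    intro i t
    fin_cases i
    · exact hasDerivAt_const t 0
    · exact hv t
    · exact hasDerivAt_const t 0
  have hY' : ∀ i, Continuous ((![0, v', 0] : Fin 3 → ℝ → ℂ) i) := by
    intro i; fin_cases i <;> first | exact continuous_zero | exact hv'
  refine mode_isCWeak hr.isOpen hr.bounded hl hm hY hY'
    ![![0, fun t => (m t : ℂ) * (ε * κ * v t), 0],
      ![fun t => (m t : ℂ) * (ε * κ * v t), 0, fun t => κ * r t], ![0, fun t => κ * r t, 0]]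
    ![0, fun t => κ * r' t, 0] ?_ ?_ ?_ ?_ ?_
  · intro i j
    fin_cases i <;> fin_cases j <;>
      first
      | exact continuous_zero
      | exact hmC.mul (continuous_const.mul hvc)
      | exact continuous_const.mul hrc
  · intro i t
    fin_cases i
    · exact hasDerivAt_const t 0
    · exact (hrd t).const_mul κ
    · exact hasDerivAt_const t 0
  · intro i
    fin_cases i <;> first | exact continuous_zero | exact continuous_const.mul hr'
  · intro x hx i j
    have h1 := (he _ (hr.Icc_of_mem hx)).1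
    have hne : (m (x 2) : ℂ) ≠ 0 := Complex.ofReal_ne_zero.2 (hm0 _ (hr.Icc_of_mem hx))
    fin_cases i <;> fin_cases j <;>
      simp [prof, Fin.sum_univ_three, h1] <;> field_simp
  · intro x hx i
    have h2 := (he _ (hr.Icc_of_mem hx)).2
    fin_cases i <;> simp [h2]
    linear_combination κ * κ * (m (x 2) : ℂ) * v (x 2) * hε

/-- The density of the product of two shear modes. -/
theorem shear_dens (κ : ℂ) (v v' w w' : ℝ → ℂ) (L M : ℝ) (x : Space) :
    cdens L M (modeGrad (Complex.I * κ) ![0, v, 0] ![0, v', 0] x)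
      (modeGrad (-Complex.I * κ) ![0, w, 0] ![0, w', 0] x) =
      (M : ℂ) * (κ * κ * v (x 2) * w (x 2) + v' (x 2) * w' (x 2)) := by
  have hE : Complex.exp (Complex.I * κ * (x 0 : ℂ)) * Complex.exp (-Complex.I * κ * (x 0 : ℂ)) = 1 := by
    rw [← Complex.exp_add]; ring_nf; exact Complex.exp_zero
  simp [cdens, modeGrad, prof, Fin.sum_univ_three]
  simp only [neg_mul] at hE
  linear_combination (M : ℂ) * (κ * κ * v (x 2) * w (x 2) + v' (x 2) * w' (x 2)) * hE
    - (M : ℂ) * κ * κ * v (x 2) * w (x 2) * Complex.exp (Complex.I * κ * (x 0 : ℂ)) *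
      Complex.exp (-(Complex.I * κ * (x 0 : ℂ))) * Complex.I_sq

/-- The shear moduli agree. -/
theorem shear_unique (hr : Range Ω p q) {l₁ m₁ dm₁ d2m₁ l₂ m₂ dm₂ d2m₂ : ℝ → ℝ}
    (hl₁ : Continuous l₁) (hl₂ : Continuous l₂)
    (hm₁ : ∀ t, HasDerivAt m₁ (dm₁ t) t) (hdm₁ : ∀ t, HasDerivAt dm₁ (d2m₁ t) t) (hd₁ : Continuous d2m₁)
    (hm₂ : ∀ t, HasDerivAt m₂ (dm₂ t) t) (hdm₂ : ∀ t, HasDerivAt dm₂ (d2m₂ t) t) (hd₂ : Continuous d2m₂)
    (hp₁ : ∀ t ∈ Icc p q, 0 < m₁ t) (hp₂ : ∀ t ∈ Icc p q, 0 < m₂ t)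
    (hg₁ : Good Ω (fun x => l₁ (x 2)) fun x => m₁ (x 2))
    (hg₂ : Good Ω (fun x => l₂ (x 2)) fun x => m₂ (x 2))
    (hS : SameMap Ω (fun x => l₁ (x 2)) (fun x => m₁ (x 2)) (fun x => l₂ (x 2)) fun x => m₂ (x 2)) :
    ∀ t ∈ Icc p q, m₁ t = m₂ t := by
  have hc₁ : Continuous m₁ := continuous_iff_continuousAt.2 fun t => (hm₁ t).continuousAt
  have hc₂ : Continuous m₂ := continuous_iff_continuousAt.2 fun t => (hm₂ t).continuousAt
  obtain ⟨C₁, hsol₁⟩ := shear_solution hr.lt hm₁ hdm₁ hd₁ hp₁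
  obtain ⟨C₂, hsol₂⟩ := shear_solution hr.lt hm₂ hdm₂ hd₂ hp₂
  obtain ⟨BA, hBA, hA⟩ := sliceArea_bounded hr.bounded
  obtain ⟨Bd, hBd, hdb⟩ := exists_bound_Icc (p := p) (q := q) (hc₁.sub hc₂).continuousOn
  set h : ℝ → ℝ := (Ioc p q).indicator fun t => sliceArea Ω t * (m₁ t - m₂ t) with hh
  have hmeas : Measurable h :=
    ((sliceArea_measurable hr.isOpen).mul (hc₁.sub hc₂).measurable).indicator measurableSet_Ioc
  have hbound : ∀ t, |h t| ≤ BA * Bd := by
    intro t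
    simp only [h, Set.indicator_apply]
    split_ifs with ht
    · rw [abs_mul]; exact mul_le_mul (hA t) (hdb t (Ioc_subset_Icc_self ht)) (abs_nonneg _) hBA
    · rw [abs_zero]; positivity
  have hne : ∀ {m : ℝ → ℝ}, (∀ t ∈ Icc p q, 0 < m t) → ∀ t ∈ Icc p q, m t ≠ 0 :=
    fun hp t ht => (hp t ht).ne'
  set a₁ : ℝ → ℝ := fun t => √(m₁ t) / √(m₁ p) with ha₁
  set a₂ : ℝ → ℝ := fun t => √(m₂ t) / √(m₂ p) with ha₂
  have hac : ∀ {m : ℝ → ℝ}, Continuous m → Continuous fun t => √(m t) / √(m p) := fun hm =>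
    (Real.continuous_sqrt.comp hm).div_const _
  obtain ⟨N₁, hN₁, hn₁⟩ := exists_bound_Icc (f := fun t => a₁ t / (2 * m₁ t))
    ((hac hc₁).continuousOn.div (continuous_const.mul hc₁).continuousOn
      fun t ht => mul_ne_zero two_ne_zero (hne hp₁ t ht))
  obtain ⟨N₂, hN₂, hn₂⟩ := exists_bound_Icc (f := fun t => a₂ t / (2 * m₂ t))
    ((hac hc₂).continuousOn.div (continuous_const.mul hc₂).continuousOn
      fun t ht => mul_ne_zero two_ne_zero (hne hp₂ t ht))
  obtain ⟨N₃, hN₃, hn₃⟩ := exists_bound_Icc (p := p) (q := q) (f := fun t => a₁ t / 2)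
    ((hac hc₁).div_const 2).continuousOn
  obtain ⟨N₄, hN₄, hn₄⟩ := exists_bound_Icc (p := p) (q := q) (f := fun t => a₂ t / 2)
    ((hac hc₂).div_const 2).continuousOn
  obtain ⟨N₅, hN₅, hn₅⟩ := exists_bound_Icc (f := fun t => 1 / (m₁ t * m₂ t))
    (continuousOn_const.div (hc₁.mul hc₂).continuousOn
      fun t ht => mul_ne_zero (hne hp₁ t ht) (hne hp₂ t ht))
  set N := N₁ + N₂ + N₃ + N₄ with hN
  set B := max C₁ 0 + max C₂ 0 with hB
  set f : ℝ → ℝ := fun t => a₁ t * a₂ t / (2 * (m₁ t * m₂ t)) with hf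
  have hfc : ContinuousOn f (Icc p q) :=
    ((hac hc₁).mul (hac hc₂)).continuousOn.div (continuous_const.mul (hc₁.mul hc₂)).continuousOn
      fun t ht => mul_ne_zero two_ne_zero (mul_ne_zero (hne hp₁ t ht) (hne hp₂ t ht))
  set φ : Unit → ℝ → ℂ := fun _ => clampF p q fun t => (f t : ℂ) with hφ
  have hφc : ∀ k, Continuous (φ k) := fun _ =>
    continuous_clampF hr.lt.le (Complex.continuous_ofReal.comp_continuousOn hfc)
  obtain ⟨t₀, ht₀, hmin⟩ := isCompact_Icc.exists_isMinOn (nonempty_Icc.2 hr.lt.le) hfc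
  have hfpos : ∀ t ∈ Icc p q, 0 < f t := fun t ht => by
    have h1 := hp₁ t ht; have h2 := hp₂ t ht
    have h3 := hp₁ p (left_mem_Icc.2 hr.lt.le); have h4 := hp₂ p (left_mem_Icc.2 hr.lt.le)
    positivity
  have hae := laplace_vanish hr.lt hmeas hbound hφc (c := f t₀ ^ 2) (pow_pos (hfpos t₀ ht₀) 2)
    (fun t ht => by
      simp only [Finset.univ_unique, Finset.sum_singleton, φ]
      rw [clampF_eq _ ht, Complex.norm_real, Real.norm_eq_abs, sq_abs]
      exact pow_le_pow_left₀ (hfpos t₀ ht₀).le (hmin ht) 2)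
    (C := (1 + N₅) * (B * (N + B) + N * B)) (ξ₀ := 1) (fun κ hκ k => ?_)
  · intro t ht
    have hz := eq_zero_of_weighted_ae (w := sliceArea Ω) (f := fun t => m₁ t - m₂ t)
      (isOpenMap_eval (X := fun _ : Fin 3 => ℝ) 2 Ω hr.isOpen) (by rintro _ ⟨x, hx, rfl⟩; exact hr.mem x hx)
      (by rintro _ ⟨x, hx, rfl⟩; exact sliceArea_pos hr.isOpen hr.bounded hx) (hc₁.sub hc₂) (by
        filter_upwards [hae, ae_restrict_mem measurableSet_Ioc] with s hs hsm
        simpa [h, hsm] using hs)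
    have := closure_minimal (fun s hs => sub_eq_zero.1 (hz s hs)) (isClosed_eq hc₁ hc₂) (hr.dense ht)
    exact this
  have hκ1 : 1 ≤ ‖κ‖ := hκ.trans (Complex.re_le_norm κ)
  have hκ0 : κ ≠ 0 := by intro hz; rw [hz, norm_zero] at hκ1; linarith
  obtain ⟨v, v', r, r', hv, hv', hr1, hr1', he₁⟩ := hsol₁ κ hκ1 (by linarith)
  obtain ⟨w, w', s, s', hw, hw', hs1, hs1', he₂⟩ := hsol₂ κ hκ1 (by linarith)
  have hid := cform_eq_of_sameMap hg₁ hg₂ hS
    (shear_mode hr hl₁ hc₁ (hne hp₁) Complex.I_mul_I hv hv' hr1 hr1' fun t ht => ⟨(he₁ t ht).1, (he₁ t ht).2.1⟩)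
    (shear_mode hr hl₂ hc₂ (hne hp₂) (ε := -Complex.I) (by simp) hw hw' hs1 hs1'
      fun t ht => ⟨(he₂ t ht).1, (he₂ t ht).2.1⟩)
  simp only [shear_dens] at hid
  have hvc : Continuous v := continuous_iff_continuousAt.2 fun t => (hv t).continuousAt
  have hwc : Continuous w := continuous_iff_continuousAt.2 fun t => (hw t).continuousAt
  have hrc : Continuous r := continuous_iff_continuousAt.2 fun t => (hr1 t).continuousAt
  have hsc : Continuous s := continuous_iff_continuousAt.2 fun t => (hs1 t).continuousAt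
  have hP : Continuous fun t => ((m₁ t - m₂ t : ℝ) : ℂ) * (κ * κ * v t * w t + v' t * w' t) :=
    (Complex.continuous_ofReal.comp (hc₁.sub hc₂)).mul
      (((continuous_const.mul hvc).mul hwc).add (hv'.mul hw'))
  have hzero' : ∫ t in p..q, (sliceArea Ω t : ℂ) *
      (((m₁ t - m₂ t : ℝ) : ℂ) * (κ * κ * v t * w t + v' t * w' t)) = 0 := by
    rw [← integral_height hr.isOpen hr.bounded hr.mem hP, ← hid]
    exact setIntegral_congr_fun hr.isOpen.measurableSet fun x _ => by push_cast; ring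
  set E : ℝ → ℂ := fun t => Complex.exp (-κ * ((t - p : ℝ) : ℂ)) with hE
  set R₀ : ℝ → ℂ := fun t => E t * v t * (E t * w t) + E t * r t * (E t * s t) * ((1 / (m₁ t * m₂ t) : ℝ) : ℂ)
    with hR₀
  have hEc : Continuous E := by fun_prop
  have hRc : Continuous (clampF p q R₀) := continuous_clampF hr.lt.le
    (((hEc.mul hvc).mul (hEc.mul hwc)).continuousOn.add (((hEc.mul hrc).mul (hEc.mul hsc)).continuousOn.mul
      (Complex.continuous_ofReal.comp_continuousOn (continuousOn_const.div (hc₁.mul hc₂).continuousOn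
        fun t ht => mul_ne_zero (hne hp₁ t ht) (hne hp₂ t ht)))))
  have hzero : ∫ t in p..q, (h t : ℂ) * clampF p q R₀ t * Complex.exp (2 * κ * t) = 0 := by
    have e : ∀ t ∈ Ioc p q, (h t : ℂ) * clampF p q R₀ t * Complex.exp (2 * κ * t) =
        (Complex.exp (2 * κ * p) / (κ * κ)) * ((sliceArea Ω t : ℂ) *
          (((m₁ t - m₂ t : ℝ) : ℂ) * (κ * κ * v t * w t + v' t * w' t))) := by
      intro t ht
      have hI : t ∈ Icc p q := Ioc_subset_Icc_self ht
      have n1 : (m₁ t : ℂ) ≠ 0 := Complex.ofReal_ne_zero.2 (hne hp₁ t hI)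
      have n2 : (m₂ t : ℂ) ≠ 0 := Complex.ofReal_ne_zero.2 (hne hp₂ t hI)
      have hEE : E t * E t * Complex.exp (2 * κ * t) = Complex.exp (2 * κ * p) := by
        simp only [E, ← Complex.exp_add]; congr 1; push_cast; ring
      rw [clampF_eq _ hI, (he₁ t hI).1, (he₂ t hI).1]
      simp only [h, Set.indicator_of_mem ht, R₀]
      rw [← hEE]; push_cast; field_simp
    rw [intervalIntegral.integral_congr_ae (Eventually.of_forall fun t ht => e t (by rwa [uIoc_of_le hr.lt.le] at ht)),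
      intervalIntegral.integral_const_mul, hzero', mul_zero]
  refine approx_bound hr.lt.le hmeas hbound (hφc k) hRc (fun t ht => ?_) hzero
  rw [clampF_eq _ ht]
  simp only [φ, clampF_eq _ ht]
  obtain ⟨-, -, x1, x2⟩ := he₁ t ht
  obtain ⟨-, -, y1, y2⟩ := he₂ t ht
  have hB0 : 0 ≤ B := by positivity
  have hb1 : C₁ / ‖κ‖ ≤ B / ‖κ‖ := div_le_div_of_nonneg_right
    (by rw [hB]; linarith [le_max_left C₁ 0, le_max_right C₂ 0]) (norm_nonneg _)
  have hb2 : C₂ / ‖κ‖ ≤ B / ‖κ‖ := div_le_div_of_nonneg_right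
    (by rw [hB]; linarith [le_max_left C₂ 0, le_max_right C₁ 0]) (norm_nonneg _)
  have n : ∀ {z M : ℝ}, |z| ≤ M → M ≤ N → ‖(z : ℂ)‖ ≤ N := fun h1 h2 => by
    rw [Complex.norm_real, Real.norm_eq_abs]; exact h1.trans h2
  have p1 := product_bound hκ1 (x1.trans hb1) (y1.trans hb2)
    (n (hn₁ t ht) (by rw [hN]; linarith)) (n (hn₂ t ht) (by rw [hN]; linarith)) hB0
  have p2 := product_bound hκ1 (x2.trans hb1) (y2.trans hb2)
    (n (hn₃ t ht) (by rw [hN]; linarith)) (n (hn₄ t ht) (by rw [hN]; linarith)) hB0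
  have e : R₀ t - (f t : ℂ) =
      (E t * v t * (E t * w t) - ((a₁ t / (2 * m₁ t) : ℝ) : ℂ) * ((a₂ t / (2 * m₂ t) : ℝ) : ℂ)) +
      (E t * r t * (E t * s t) - ((a₁ t / 2 : ℝ) : ℂ) * ((a₂ t / 2 : ℝ) : ℂ)) *
        ((1 / (m₁ t * m₂ t) : ℝ) : ℂ) := by
    simp only [R₀, f]; push_cast; ring
  rw [e]
  refine (norm_add_le _ _).trans ?_
  rw [norm_mul, Complex.norm_real, Real.norm_eq_abs]
  refine (add_le_add p1 (mul_le_mul p2 (hn₅ t ht) (abs_nonneg _) (by positivity))).trans (le_of_eq ?_)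
  ring

end

end Vale.Agent.P136
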