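import Mathlib
import Vale.Agent.P136.Shear

/-!
# P136: uniform bounds for the normalised pressure and shear amplitudes in a plane of propagation
-/

open MeasureTheory Set Filter
open scoped Topology

namespace Vale.Agent.P136

noncomputable section

/-- Coefficient functions of the normalised system, with common bounds. -/
structure Coeffs (p q : ℝ) (dm d2m d3m α dα γ dγ : ℝ → ℝ) (C : ℝ) : Prop where
  one_le : 1 ≤ C
  bdm : ∀ t ∈ Icc p q, |dm t| ≤ C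
  bd2m : ∀ t ∈ Icc p q, |d2m t| ≤ C
  bd3m : ∀ t ∈ Icc p q, |d3m t| ≤ C
  bα : ∀ t ∈ Icc p q, |α t| ≤ C
  bdα : ∀ t ∈ Icc p q, |dα t| ≤ C
  bγ : ∀ t ∈ Icc p q, |γ t| ≤ C
  bdγ : ∀ t ∈ Icc p q, |dγ t| ≤ C
  hdm : ∀ t ∈ Icc p q, HasDerivAt dm (d2m t) t
  hd2m : ∀ t ∈ Icc p q, HasDerivAt d2m (d3m t) t
  hα : ∀ t ∈ Icc p q, HasDerivAt α (dα t) t
  hγ : ∀ t ∈ Icc p q, HasDerivAt γ (dγ t) t

/-- The normalised system. -/
structure NormSys (p q : ℝ) (dm α γ : ℝ → ℝ) (κ : ℂ) (π δ ρ σ : ℝ → ℂ) : Prop where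
  hπ : ∀ t ∈ Icc p q, HasDerivAt π (2 * (dm t : ℂ) * σ t) t
  hδ : ∀ t ∈ Icc p q, HasDerivAt δ ((α t : ℂ) * π t + (γ t : ℂ) * ρ t) t
  hρ : ∀ t ∈ Icc p q, HasDerivAt ρ (-2 * κ * ρ t - 2 * κ * (dm t : ℂ) * δ t) t
  hσ : ∀ t ∈ Icc p q, HasDerivAt σ (-2 * κ * σ t + κ * ((γ t : ℂ) * π t + (α t : ℂ) * ρ t)) t
  hρ0 : ρ p = -(dm p : ℂ) * δ p
  hσ0 : σ p = ((γ p : ℂ) * π p + (α p : ℂ) * ρ p) / 2

theorem norm_ofReal_mul_le {c C X : ℝ} {z : ℂ} (hc : |c| ≤ C) (hz : ‖z‖ ≤ X) :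
    ‖(c : ℂ) * z‖ ≤ C * X := by
  rw [norm_mul, Complex.norm_real, Real.norm_eq_abs]
  exact mul_le_mul hc hz (norm_nonneg _) ((abs_nonneg c).trans hc)

variable {p q : ℝ} {dm d2m d3m α dα γ dγ : ℝ → ℝ} {C : ℝ}

/-- Algebraic bounds at one time. -/
theorem point_bounds (hC : 1 ≤ C) {a b cd g : ℝ} (ha : |a| ≤ C) (hb : |b| ≤ C) (hcd : |cd| ≤ C)
    (hg : |g| ≤ C) {κ P D R Sg : ℂ} (hκ : C ^ 2 ≤ ‖κ‖) {S : ℝ}
    (hP : ‖P‖ ≤ S) (hD : ‖D‖ ≤ S)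
    (hx : ‖κ * (R + (a : ℂ) * D) - ((b : ℂ) * D + (a : ℂ) * ((cd : ℂ) * P + (g : ℂ) * R)) / 2‖ ≤ S)
    (hs : ‖Sg - ((g : ℂ) * P + (cd : ℂ) * R) / 2‖ ≤ S) :
    ‖κ * (R + (a : ℂ) * D)‖ ≤ 5 * C ^ 3 * S ∧ ‖R‖ ≤ 6 * C ^ 3 * S ∧ ‖Sg‖ ≤ 5 * C ^ 4 * S := by
  have hS : 0 ≤ S := (norm_nonneg _).trans hP
  have hκpos : 0 < ‖κ‖ := lt_of_lt_of_le (by positivity) hκ
  set H := R + (a : ℂ) * D with hH
  have hR : ‖R‖ ≤ ‖H‖ + C * S := by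
    rw [show R = H - (a : ℂ) * D by simp [H]]
    exact (norm_sub_le _ _).trans (add_le_add le_rfl (norm_ofReal_mul_le ha hD))
  have hF : ‖(b : ℂ) * D + (a : ℂ) * ((cd : ℂ) * P + (g : ℂ) * R)‖ ≤
      C * S + C * (C * S + C * (‖H‖ + C * S)) :=
    (norm_add_le _ _).trans (add_le_add (norm_ofReal_mul_le hb hD) (norm_ofReal_mul_le ha
      ((norm_add_le _ _).trans (add_le_add (norm_ofReal_mul_le hcd hP) (norm_ofReal_mul_le hg hR)))))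
  have hw : ‖κ * H‖ ≤ S + (C * S + C * (C * S + C * (‖H‖ + C * S))) / 2 := by
    have := norm_sub_norm_le (κ * H) (((b : ℂ) * D + (a : ℂ) * ((cd : ℂ) * P + (g : ℂ) * R)) / 2)
    rw [norm_div, Complex.norm_two] at this
    linarith
  rw [norm_mul] at hw ⊢
  have hCH : C * C * ‖H‖ ≤ ‖κ‖ * ‖H‖ := mul_le_mul_of_nonneg_right (by linarith [sq C]) (norm_nonneg _)
  have p1 : S ≤ C ^ 3 * S := le_mul_of_one_le_left hS (one_le_pow₀ hC)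
  have p2 : C * S ≤ C ^ 3 * S := mul_le_mul_of_nonneg_right (le_self_pow₀ hC (by norm_num)) hS
  have p3 : C ^ 2 * S ≤ C ^ 3 * S := mul_le_mul_of_nonneg_right (pow_le_pow_right₀ hC (by norm_num)) hS
  have h1 : ‖κ‖ * ‖H‖ ≤ 5 * C ^ 3 * S := by nlinarith
  have hH' : ‖H‖ ≤ 5 * C ^ 3 * S :=
    (le_mul_of_one_le_left (norm_nonneg _) ((one_le_pow₀ hC).trans hκ)).trans h1
  have h2 : ‖R‖ ≤ 6 * C ^ 3 * S := by nlinarith
  refine ⟨h1, h2, ?_⟩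
  have h3 := norm_sub_norm_le Sg (((g : ℂ) * P + (cd : ℂ) * R) / 2)
  have h4 := (norm_add_le ((g : ℂ) * P) ((cd : ℂ) * R)).trans
    (add_le_add (norm_ofReal_mul_le hg hP) (norm_ofReal_mul_le hcd h2))
  rw [norm_div, Complex.norm_two] at h3
  have p4 : C ^ 3 * S ≤ C ^ 4 * S := mul_le_mul_of_nonneg_right (pow_le_pow_right₀ hC (by norm_num)) hS
  nlinarith

/-- Bounds for the time derivatives at one time. -/
theorem point_deriv_bounds (hC : 1 ≤ C) {a b e cd dc g dg : ℝ} (ha : |a| ≤ C) (hb : |b| ≤ C)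
    (he : |e| ≤ C) (hcd : |cd| ≤ C) (hdc : |dc| ≤ C) (hg : |g| ≤ C) (hdg : |dg| ≤ C)
    {P D R Sg W : ℂ} {S : ℝ} (hP : ‖P‖ ≤ S) (hD : ‖D‖ ≤ S) (hR : ‖R‖ ≤ 6 * C ^ 3 * S)
    (hSg : ‖Sg‖ ≤ 5 * C ^ 4 * S) (hW : ‖W‖ ≤ 5 * C ^ 3 * S) :
    ‖2 * (a : ℂ) * Sg‖ ≤ 50 * C ^ 7 * S ∧ ‖(cd : ℂ) * P + (g : ℂ) * R‖ ≤ 50 * C ^ 7 * S ∧
    ‖(e : ℂ) * D + (b : ℂ) * ((cd : ℂ) * P + (g : ℂ) * R) + ((b : ℂ) * ((cd : ℂ) * P + (g : ℂ) * R) +
        (a : ℂ) * ((dc : ℂ) * P + (cd : ℂ) * (2 * (a : ℂ) * Sg) + ((dg : ℂ) * R + (g : ℂ) * (-2 * W))))‖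
      ≤ 50 * C ^ 7 * S ∧
    ‖(dg : ℂ) * P + (g : ℂ) * (2 * (a : ℂ) * Sg) + ((dc : ℂ) * R + (cd : ℂ) * (-2 * W))‖
      ≤ 50 * C ^ 7 * S := by
  have hS : 0 ≤ S := (norm_nonneg _).trans hP
  have pw : ∀ k : ℕ, k ≤ 7 → C ^ k * S ≤ C ^ 7 * S := fun k hk =>
    mul_le_mul_of_nonneg_right (pow_le_pow_right₀ hC hk) hS
  have e1 : ‖2 * (a : ℂ) * Sg‖ ≤ 10 * C ^ 5 * S := by
    rw [mul_assoc, norm_mul, Complex.norm_two]
    nlinarith [norm_ofReal_mul_le ha hSg]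
  have e2 : ‖(cd : ℂ) * P + (g : ℂ) * R‖ ≤ C * S + 6 * C ^ 4 * S :=
    (norm_add_le _ _).trans (by nlinarith [norm_ofReal_mul_le hcd hP, norm_ofReal_mul_le hg hR])
  have e3 : ‖-2 * W‖ ≤ 10 * C ^ 3 * S := by
    rw [norm_mul, norm_neg, Complex.norm_two]; linarith
  have q0 := pw 0 (by norm_num)
  have q1 := pw 1 (by norm_num)
  have q2 := pw 2 (by norm_num)
  have q4 := pw 4 (by norm_num)
  have q5 := pw 5 (by norm_num)
  have q6 := pw 6 (by norm_num)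
  rw [pow_one] at q1
  have hCS : 0 ≤ C ^ 7 * S := by positivity
  refine ⟨by linarith, by linarith, ?_, ?_⟩
  · refine (norm_add_le _ _).trans ?_
    refine le_trans (add_le_add ((norm_add_le _ _).trans (add_le_add (norm_ofReal_mul_le he hD)
      (norm_ofReal_mul_le hb e2))) ((norm_add_le _ _).trans (add_le_add (norm_ofReal_mul_le hb e2)
      (norm_ofReal_mul_le ha ((norm_add_le _ _).trans (add_le_add ((norm_add_le _ _).trans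
        (add_le_add (norm_ofReal_mul_le hdc hP) (norm_ofReal_mul_le hcd e1)))
        ((norm_add_le _ _).trans (add_le_add (norm_ofReal_mul_le hdg hR)
          (norm_ofReal_mul_le hg e3))))))))) ?_
    ring_nf at q0 q1 q2 q4 q5 q6 hCS ⊢
    linarith
  · refine (norm_add_le _ _).trans (le_trans (add_le_add ((norm_add_le _ _).trans
      (add_le_add (norm_ofReal_mul_le hdg hP) (norm_ofReal_mul_le hg e1)))
      ((norm_add_le _ _).trans (add_le_add (norm_ofReal_mul_le hdc hR) (norm_ofReal_mul_le hcd e3)))) ?_)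
    ring_nf at q0 q1 q2 q4 q5 q6 hCS ⊢
    linarith

theorem sq_sum_four_le (a b c d : ℝ) : (a + b + c + d) ^ 2 ≤ 4 * (a ^ 2 + b ^ 2 + c ^ 2 + d ^ 2) := by
  nlinarith [sq_nonneg (a - b), sq_nonneg (a - c), sq_nonneg (a - d), sq_nonneg (b - c),
    sq_nonneg (b - d), sq_nonneg (c - d)]

/-- Uniform bounds for the normalised system. -/
theorem normSys_bounds (hc : Coeffs p q dm d2m d3m α dα γ dγ C) (hpq : p ≤ q) (π₀ δ₀ : ℂ) :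
    ∃ B, 0 ≤ B ∧ ∀ κ : ℂ, C ^ 2 ≤ ‖κ‖ → 0 ≤ κ.re → ∀ π δ ρ σ : ℝ → ℂ,
      NormSys p q dm α γ κ π δ ρ σ → π p = π₀ → δ p = δ₀ → ∀ t ∈ Icc p q,
        ‖π t‖ ≤ B ∧ ‖δ t‖ ≤ B ∧ ‖σ t‖ ≤ B ∧ ‖κ * (ρ t + (dm t : ℂ) * δ t)‖ ≤ B ∧
        ‖σ t - ((γ t : ℂ) * π t + (α t : ℂ) * ρ t) / 2‖ ≤ B ∧ ‖ρ t‖ ≤ B := by
  have hC := hc.one_le
  set K := 50 * C ^ 7 with hK
  set N₀ := (‖π₀‖ ^ 2 + ‖δ₀‖ ^ 2 + (3 * C ^ 3 * (‖π₀‖ + ‖δ₀‖)) ^ 2) * Real.exp (8 * K * (q - p)) with hN₀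
  refine ⟨6 * C ^ 4 * (2 * √N₀), by positivity, fun κ hκ hκr π δ ρ σ hy hπ0 hδ0 => ?_⟩
  set x : ℝ → ℂ := fun t => κ * (ρ t + (dm t : ℂ) * δ t) -
    ((d2m t : ℂ) * δ t + (dm t : ℂ) * ((α t : ℂ) * π t + (γ t : ℂ) * ρ t)) / 2 with hx
  set s : ℝ → ℂ := fun t => σ t - ((γ t : ℂ) * π t + (α t : ℂ) * ρ t) / 2 with hs
  obtain ⟨S, hS⟩ : ∃ S : ℝ → ℝ, S = fun t => ‖π t‖ + ‖δ t‖ + ‖x t‖ + ‖s t‖ := ⟨_, rfl⟩
  have hle : ∀ t, ‖π t‖ ≤ S t ∧ ‖δ t‖ ≤ S t ∧ ‖x t‖ ≤ S t ∧ ‖s t‖ ≤ S t := fun t => by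
    subst hS
    have := norm_nonneg (π t); have := norm_nonneg (δ t)
    have := norm_nonneg (x t); have := norm_nonneg (s t)
    refine ⟨?_, ?_, ?_, ?_⟩ <;> simp only <;> linarith
  have hpt : ∀ t ∈ Icc p q, ‖κ * (ρ t + (dm t : ℂ) * δ t)‖ ≤ 5 * C ^ 3 * S t ∧
      ‖ρ t‖ ≤ 6 * C ^ 3 * S t ∧ ‖σ t‖ ≤ 5 * C ^ 4 * S t := fun t ht =>
    point_bounds hC (hc.bdm t ht) (hc.bd2m t ht) (hc.bα t ht) (hc.bγ t ht) hκ (hle t).1 (hle t).2.1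
      (hle t).2.2.1 (hle t).2.2.2
  have hx' : ∀ t ∈ Icc p q, HasDerivAt x (-2 * κ * x t + -(((d3m t : ℂ) * δ t +
      (d2m t : ℂ) * ((α t : ℂ) * π t + (γ t : ℂ) * ρ t) +
      ((d2m t : ℂ) * ((α t : ℂ) * π t + (γ t : ℂ) * ρ t) +
        (dm t : ℂ) * ((dα t : ℂ) * π t + (α t : ℂ) * (2 * (dm t : ℂ) * σ t) +
          ((dγ t : ℂ) * ρ t + (γ t : ℂ) * (-2 * (κ * (ρ t + (dm t : ℂ) * δ t))))))) / 2)) t := by
    intro t ht
    refine ((((hy.hρ t ht).add ((hc.hdm t ht).ofReal_comp.mul (hy.hδ t ht))).const_mul κ).sub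
      ((((hc.hd2m t ht).ofReal_comp.mul (hy.hδ t ht)).add ((hc.hdm t ht).ofReal_comp.mul
        (((hc.hα t ht).ofReal_comp.mul (hy.hπ t ht)).add
          ((hc.hγ t ht).ofReal_comp.mul (hy.hρ t ht))))).div_const 2)).congr_deriv ?_
    simp only [x, Pi.add_apply, Pi.mul_apply]; ring
  have hs' : ∀ t ∈ Icc p q, HasDerivAt s (-2 * κ * s t + -(((dγ t : ℂ) * π t +
      (γ t : ℂ) * (2 * (dm t : ℂ) * σ t) + ((dα t : ℂ) * ρ t +
        (α t : ℂ) * (-2 * (κ * (ρ t + (dm t : ℂ) * δ t))))) / 2)) t := by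
    intro t ht
    refine ((hy.hσ t ht).sub ((((hc.hγ t ht).ofReal_comp.mul (hy.hπ t ht)).add
      ((hc.hα t ht).ofReal_comp.mul (hy.hρ t ht))).div_const 2)).congr_deriv ?_
    simp only [s]; ring
  intro t ht
  have hN := gronwall_le (N := fun t => ‖π t‖ ^ 2 + ‖δ t‖ ^ 2 + ‖x t‖ ^ 2 + ‖s t‖ ^ 2) (K := 8 * K)
    (fun u hu => ((((hy.hπ u hu).norm_sq).add (hy.hδ u hu).norm_sq).add (hx' u hu).norm_sq).add
      (hs' u hu).norm_sq) (fun u hu => ?_) ht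
  swap
  · obtain ⟨hw, hr, hsg⟩ := hpt u hu
    obtain ⟨g1, g2, g3, g4⟩ := point_deriv_bounds hC (hc.bdm u hu) (hc.bd2m u hu) (hc.bd3m u hu)
      (hc.bα u hu) (hc.bdα u hu) (hc.bγ u hu) (hc.bdγ u hu) (hle u).1 (hle u).2.1 hr hsg hw
    rw [← hK] at g1 g2 g3 g4
    have i1 := (real_inner_le_norm (π u) _).trans (mul_le_mul_of_nonneg_left g1 (norm_nonneg (π u)))
    have i2 := (real_inner_le_norm (δ u) _).trans (mul_le_mul_of_nonneg_left g2 (norm_nonneg (δ u)))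
    have half : ∀ z : ℂ, ‖-(z / 2)‖ ≤ ‖z‖ := fun z => by
      rw [norm_neg, norm_div, Complex.norm_two]; linarith [norm_nonneg z]
    have i3 := fun g (hg : ‖g‖ ≤ K * S u) => (inner_damped_le (f := x u) (g := g) hκr).trans
      (mul_le_mul_of_nonneg_left hg (by positivity))
    have i4 := fun g (hg : ‖g‖ ≤ K * S u) => (inner_damped_le (f := s u) (g := g) hκr).trans
      (mul_le_mul_of_nonneg_left hg (by positivity))
    have hx2 := i3 _ ((half _).trans g3)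
    have hs2 := i4 _ ((half _).trans g4)
    have hK0 : 0 ≤ K := by positivity
    have hsum : (‖π u‖ + ‖δ u‖ + ‖x u‖ + ‖s u‖) = S u := by rw [hS]
    have hsq := mul_le_mul_of_nonneg_left (sq_sum_four_le ‖π u‖ ‖δ u‖ ‖x u‖ ‖s u‖) hK0
    rw [hsum] at hsq
    calc _ ≤ 2 * K * (‖π u‖ + ‖δ u‖ + ‖x u‖ + ‖s u‖) * S u := by linarith
      _ = 2 * (K * S u ^ 2) := by rw [hsum]; ring
      _ ≤ _ := by linarith
  have hp : p ∈ Icc p q := left_mem_Icc.2 hpq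
  have hx0 : ‖x p‖ ≤ 3 * C ^ 3 * (‖π₀‖ + ‖δ₀‖) := by
    have e : x p = -(((d2m p : ℂ) * δ₀ + (dm p : ℂ) * ((α p : ℂ) * π₀ +
        (γ p : ℂ) * ((-dm p : ℝ) * δ₀))) / 2) := by
      simp only [x, hy.hρ0, hπ0, hδ0]; push_cast; ring
    rw [e, norm_neg, norm_div, Complex.norm_two]
    have := (norm_add_le _ _).trans (add_le_add (norm_ofReal_mul_le (hc.bd2m p hp) (le_refl ‖δ₀‖))
      (norm_ofReal_mul_le (hc.bdm p hp) ((norm_add_le _ _).trans (add_le_add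
        (norm_ofReal_mul_le (hc.bα p hp) (le_refl ‖π₀‖)) (norm_ofReal_mul_le (hc.bγ p hp)
          (norm_ofReal_mul_le (c := -dm p) ((abs_neg _).le.trans (hc.bdm p hp)) (le_refl ‖δ₀‖)))))))
    have k1 : ∀ k ≤ 3, ∀ r : ℝ, 0 ≤ r → C ^ k * r ≤ C ^ 3 * r := fun k hk r hr =>
      mul_le_mul_of_nonneg_right (pow_le_pow_right₀ hC hk) hr
    have a1 := k1 1 (by norm_num) _ (norm_nonneg δ₀)
    have a2 := k1 2 (by norm_num) _ (norm_nonneg π₀)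
    have a3 : 0 ≤ C ^ 3 * ‖δ₀‖ := by positivity
    have a4 : 0 ≤ C ^ 3 * ‖π₀‖ := by positivity
    ring_nf at this a1 a2 a3 a4 ⊢
    linarith
  have hs0 : s p = 0 := by simp only [s]; rw [hy.hσ0, sub_self]
  have hNt : ‖π t‖ ^ 2 + ‖δ t‖ ^ 2 + ‖x t‖ ^ 2 + ‖s t‖ ^ 2 ≤ N₀ := by
    refine hN.trans (mul_le_mul ?_ (Real.exp_le_exp.2 ?_) (Real.exp_pos _).le (by positivity))
    · simp only [hπ0, hδ0, hs0, norm_zero]
      nlinarith [pow_le_pow_left₀ (norm_nonneg _) hx0 2]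
    · exact mul_le_mul_of_nonneg_left (by linarith [ht.2]) (by positivity)
  have hSt : S t ≤ 2 * √N₀ := by
    have h1 := (sq_sum_four_le ‖π t‖ ‖δ t‖ ‖x t‖ ‖s t‖).trans (mul_le_mul_of_nonneg_left hNt (by norm_num))
    rw [hS]
    refine (Real.le_sqrt_of_sq_le h1).trans (le_of_eq ?_)
    rw [show (4 : ℝ) * N₀ = 2 ^ 2 * N₀ by ring, Real.sqrt_mul (by norm_num), Real.sqrt_sq zero_le_two]
  obtain ⟨hw, hr, hsg⟩ := hpt t ht
  obtain ⟨l1, l2, -, l4⟩ := hle t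
  have h0 : 0 ≤ 2 * √N₀ := by positivity
  have a1 : (1 : ℝ) ≤ 6 * C ^ 4 := by nlinarith [one_le_pow₀ (n := 4) hC]
  have a3 : C ^ 3 ≤ C ^ 4 := pow_le_pow_right₀ hC (by norm_num)
  have hS0 : 0 ≤ S t := (norm_nonneg _).trans l1
  have big : ∀ k, k ≤ 6 * C ^ 4 → k * S t ≤ 6 * C ^ 4 * (2 * √N₀) := fun k hk =>
    (mul_le_mul_of_nonneg_right hk hS0).trans (mul_le_mul_of_nonneg_left hSt (by positivity))
  exact ⟨l1.trans (by simpa using big 1 a1), l2.trans (by simpa using big 1 a1),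
    hsg.trans (big _ (by linarith [show (0:ℝ) ≤ C ^ 4 by positivity])),
    hw.trans (big _ (by linarith [show (0:ℝ) ≤ C ^ 3 by positivity])),
    l4.trans (by simpa using big 1 a1), hr.trans (big _ (by linarith))⟩

/-- The leading amplitudes. -/
structure AmpSys (p q : ℝ) (dm α γ : ℝ → ℝ) (π₀ δ₀ : ℝ → ℂ) : Prop where
  hπ : ∀ t ∈ Icc p q,
    HasDerivAt π₀ ((dm t : ℂ) * ((γ t : ℂ) * π₀ t - (α t : ℂ) * (dm t : ℂ) * δ₀ t)) t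
  hδ : ∀ t ∈ Icc p q, HasDerivAt δ₀ ((α t : ℂ) * π₀ t - (γ t : ℂ) * (dm t : ℂ) * δ₀ t) t

/-- The normalised system follows the leading amplitudes to first order. -/
theorem normSys_limit (hc : Coeffs p q dm d2m d3m α dα γ dγ C) (hpq : p ≤ q) {π₀ δ₀ : ℝ → ℂ}
    (h₀ : AmpSys p q dm α γ π₀ δ₀) :
    ∃ B, 0 ≤ B ∧ ∀ κ : ℂ, C ^ 2 ≤ ‖κ‖ → 0 ≤ κ.re → ∀ π δ ρ σ : ℝ → ℂ,
      NormSys p q dm α γ κ π δ ρ σ → π p = π₀ p → δ p = δ₀ p → ∀ t ∈ Icc p q,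
        ‖(π t - ρ t) - (π₀ t + (dm t : ℂ) * δ₀ t)‖ ≤ B / ‖κ‖ := by
  obtain ⟨B, hB, hbd⟩ := normSys_bounds hc hpq (π₀ p) (δ₀ p)
  have hC := hc.one_le
  set E := √(Real.exp ((8 * C ^ 3 + 2) * (q - p))) with hE
  refine ⟨(1 + C) * (20 * C ^ 3 * B * E) + 2 * C * B, by positivity, fun κ hκ hκr π δ ρ σ hy hπ0 hδ0 => ?_⟩
  have hκ1 : 1 ≤ ‖κ‖ := le_trans (one_le_pow₀ hC) hκ
  have hκ0 : κ ≠ 0 := by intro h; rw [h, norm_zero] at hκ1; linarith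
  have hκpos : 0 < ‖κ‖ := norm_pos_iff.2 hκ0
  have hb := hbd κ hκ hκr π δ ρ σ hy hπ0 hδ0
  set h : ℝ → ℂ := fun t => ρ t + (dm t : ℂ) * δ t with hh
  set s : ℝ → ℂ := fun t => σ t - ((γ t : ℂ) * π t + (α t : ℂ) * ρ t) / 2 with hs
  set G : ℝ → ℂ := fun t => -(((dγ t : ℂ) * π t + (γ t : ℂ) * (2 * (dm t : ℂ) * σ t) +
      ((dα t : ℂ) * ρ t + (α t : ℂ) * (-2 * (κ * h t)))) / 2) with hG
  set e₁ : ℝ → ℂ := fun t => π t + (dm t : ℂ) * s t / κ - π₀ t with he₁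
  set e₂ : ℝ → ℂ := fun t => δ t - δ₀ t with he₂
  have hs' : ∀ t ∈ Icc p q, HasDerivAt s (-2 * κ * s t + G t) t := by
    intro t ht
    refine ((hy.hσ t ht).sub ((((hc.hγ t ht).ofReal_comp.mul (hy.hπ t ht)).add
      ((hc.hα t ht).ofReal_comp.mul (hy.hρ t ht))).div_const 2)).congr_deriv ?_
    simp only [s, G, h]; ring
  have he₁' : ∀ t ∈ Icc p q, HasDerivAt e₁ ((dm t : ℂ) * ((γ t : ℂ) * e₁ t -
      (α t : ℂ) * (dm t : ℂ) * e₂ t) + ((dm t : ℂ) * ((α t : ℂ) * h t -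
        (γ t : ℂ) * (dm t : ℂ) * s t / κ) + ((d2m t : ℂ) * s t + (dm t : ℂ) * G t) / κ)) t := by
    intro t ht
    refine (((hy.hπ t ht).add (((hc.hdm t ht).ofReal_comp.mul (hs' t ht)).div_const κ)).sub
      (h₀.hπ t ht)).congr_deriv ?_
    simp only [e₁, e₂, h, s]; field_simp; ring
  have he₂' : ∀ t ∈ Icc p q, HasDerivAt e₂ (((α t : ℂ) * e₁ t - (γ t : ℂ) * (dm t : ℂ) * e₂ t) +
      ((γ t : ℂ) * h t - (α t : ℂ) * (dm t : ℂ) * s t / κ)) t := by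
    intro t ht
    refine ((hy.hδ t ht).sub (h₀.hδ t ht)).congr_deriv ?_
    simp only [e₁, e₂, h]; field_simp; ring
  have hhb : ∀ t ∈ Icc p q, ‖h t‖ ≤ B / ‖κ‖ := fun t ht => by
    rw [le_div_iff₀ hκpos, mul_comm, ← norm_mul]; exact (hb t ht).2.2.2.1
  have hsb : ∀ t ∈ Icc p q, ‖s t / κ‖ ≤ B / ‖κ‖ := fun t ht => by
    rw [norm_div]; exact div_le_div_of_nonneg_right (hb t ht).2.2.2.2.1 hκpos.le
  intro t ht
  set ε := 20 * C ^ 3 * B / ‖κ‖ with hε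
  have hpowB : ∀ k : ℕ, k ≤ 3 → C ^ k * (B / ‖κ‖) ≤ C ^ 3 * (B / ‖κ‖) := fun k hk =>
    mul_le_mul_of_nonneg_right (pow_le_pow_right₀ hC hk) (by positivity)
  have herr : ∀ u ∈ Icc p q, ‖(dm u : ℂ) * ((α u : ℂ) * h u - (γ u : ℂ) * (dm u : ℂ) * s u / κ) +
      ((d2m u : ℂ) * s u + (dm u : ℂ) * G u) / κ‖ ≤ ε ∧
      ‖(γ u : ℂ) * h u - (α u : ℂ) * (dm u : ℂ) * s u / κ‖ ≤ ε := by
    intro u hu
    have r1 : ∀ c : ℝ, |c| ≤ C → ‖(c : ℂ) * (dm u : ℂ) * s u / κ‖ ≤ C * (C * (B / ‖κ‖)) := fun c hc' => by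
      rw [show (c : ℂ) * (dm u : ℂ) * s u / κ = (c : ℂ) * ((dm u : ℂ) * (s u / κ)) by ring]
      exact norm_ofReal_mul_le hc' (norm_ofReal_mul_le (hc.bdm u hu) (hsb u hu))
    obtain ⟨b1, -, b3, b4, -, b6⟩ := hb u hu
    have hGb : ‖G u / κ‖ ≤ (C + C * C + C + C) * (B / ‖κ‖) := by
      have e3 : ‖-2 * (κ * h u)‖ ≤ 2 * B := by
        rw [norm_mul, norm_neg, Complex.norm_two]; linarith
      have e1 : ‖2 * (dm u : ℂ) * σ u‖ ≤ 2 * (C * B) := by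
        rw [mul_assoc, norm_mul, Complex.norm_two]
        linarith [norm_ofReal_mul_le (hc.bdm u hu) b3]
      rw [norm_div, ← mul_div_assoc]
      refine div_le_div_of_nonneg_right ?_ hκpos.le
      simp only [G]
      rw [norm_neg, norm_div, Complex.norm_two]
      have := (norm_add_le _ _).trans (add_le_add ((norm_add_le _ _).trans (add_le_add
        (norm_ofReal_mul_le (hc.bdγ u hu) b1) (norm_ofReal_mul_le (hc.bγ u hu) e1)))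
        ((norm_add_le _ _).trans (add_le_add (norm_ofReal_mul_le (hc.bdα u hu) b6)
          (norm_ofReal_mul_le (hc.bα u hu) e3))))
      nlinarith [mul_nonneg (mul_nonneg (le_trans zero_le_one hC) (le_trans zero_le_one hC)) hB,
        mul_nonneg (le_trans zero_le_one hC) hB]
    constructor
    · rw [show ((d2m u : ℂ) * s u + (dm u : ℂ) * G u) / κ =
        (d2m u : ℂ) * (s u / κ) + (dm u : ℂ) * (G u / κ) by ring]
      refine ((norm_add_le _ _).trans (add_le_add (norm_ofReal_mul_le (hc.bdm u hu)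
        ((norm_sub_le _ _).trans (add_le_add (norm_ofReal_mul_le (hc.bα u hu) (hhb u hu))
          (r1 _ (hc.bγ u hu))))) ((norm_add_le _ _).trans (add_le_add
            (norm_ofReal_mul_le (hc.bd2m u hu) (hsb u hu)) (norm_ofReal_mul_le (hc.bdm u hu) hGb))))).trans ?_
      rw [hε, mul_div_assoc]
      have := hpowB 1 (by norm_num); have := hpowB 2 (by norm_num)
      have : 0 ≤ C ^ 3 * (B / ‖κ‖) := by positivity
      nlinarith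
    · refine ((norm_sub_le _ _).trans (add_le_add (norm_ofReal_mul_le (hc.bγ u hu) (hhb u hu))
        (r1 _ (hc.bα u hu)))).trans ?_
      rw [hε, mul_div_assoc]
      have := hpowB 1 (by norm_num); have := hpowB 2 (by norm_num)
      have : 0 ≤ C ^ 3 * (B / ‖κ‖) := by positivity
      nlinarith
  have hN := gronwall_le (N := fun t => ‖e₁ t‖ ^ 2 + ‖e₂ t‖ ^ 2 + ε ^ 2) (K := 8 * C ^ 3 + 2)
    (fun u hu => (((he₁' u hu).norm_sq).add (he₂' u hu).norm_sq).add_const (ε ^ 2)) (fun u hu => ?_) ht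
  swap
  · set A := ‖e₁ u‖ + ‖e₂ u‖ with hA
    have hA0 : 0 ≤ A := by positivity
    have l1 : ‖e₁ u‖ ≤ A := by linarith [norm_nonneg (e₂ u)]
    have l2 : ‖e₂ u‖ ≤ A := by linarith [norm_nonneg (e₁ u)]
    have m1 : ‖(dm u : ℂ) * ((γ u : ℂ) * e₁ u - (α u : ℂ) * (dm u : ℂ) * e₂ u)‖ ≤ C * (C * A + C * (C * A)) := by
      rw [mul_assoc (α u : ℂ)]
      exact norm_ofReal_mul_le (hc.bdm u hu) ((norm_sub_le _ _).trans (add_le_add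
        (norm_ofReal_mul_le (hc.bγ u hu) l1)
        (norm_ofReal_mul_le (hc.bα u hu) (norm_ofReal_mul_le (hc.bdm u hu) l2))))
    have m2 : ‖(α u : ℂ) * e₁ u - (γ u : ℂ) * (dm u : ℂ) * e₂ u‖ ≤ C * A + C * (C * A) := by
      rw [mul_assoc (γ u : ℂ)]
      exact (norm_sub_le _ _).trans (add_le_add
        (norm_ofReal_mul_le (hc.bα u hu) l1)
        (norm_ofReal_mul_le (hc.bγ u hu) (norm_ofReal_mul_le (hc.bdm u hu) l2)))
    have p1 : C * (C * A + C * (C * A)) ≤ 2 * C ^ 3 * A := by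
      nlinarith [mul_le_mul_of_nonneg_right (pow_le_pow_right₀ hC (show 2 ≤ 3 by norm_num)) hA0]
    have p2 : C * A + C * (C * A) ≤ 2 * C ^ 3 * A := by
      nlinarith [mul_le_mul_of_nonneg_right (pow_le_pow_right₀ hC (show 2 ≤ 3 by norm_num)) hA0,
        mul_le_mul_of_nonneg_right (pow_le_pow_right₀ hC (show 1 ≤ 3 by norm_num)) hA0]
    have t1 := (real_inner_le_norm (e₁ u) _).trans (mul_le_mul_of_nonneg_left
      ((norm_add_le _ _).trans (add_le_add (m1.trans p1) (herr u hu).1)) (norm_nonneg (e₁ u)))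
    have t2 := (real_inner_le_norm (e₂ u) _).trans (mul_le_mul_of_nonneg_left
      ((norm_add_le _ _).trans (add_le_add (m2.trans p2) (herr u hu).2)) (norm_nonneg (e₂ u)))
    have q1 := two_norm_add_le ‖e₁ u‖ ‖e₂ u‖
    have hC3 : 0 ≤ C ^ 3 := by positivity
    calc _ ≤ 2 * A * (2 * C ^ 3 * A + ε) := by rw [hA] at *; linarith
      _ ≤ (4 * C ^ 3 + 1) * A ^ 2 + ε ^ 2 := by nlinarith [sq_nonneg (A - ε)]
      _ ≤ _ := by rw [← hA] at q1; nlinarith [sq_nonneg ε]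
  have hp : p ∈ Icc p q := left_mem_Icc.2 hpq
  have z1 : e₁ p = 0 := by
    simp only [e₁, s, hy.hσ0, hπ0]; simp
  have z2 : e₂ p = 0 := by simp only [e₂, hδ0]; simp
  have hεE : ‖e₁ t‖ ≤ ε * E ∧ ‖e₂ t‖ ≤ ε * E := by
    have hEe : ε ^ 2 * Real.exp ((8 * C ^ 3 + 2) * (t - p)) ≤ (ε * E) ^ 2 := by
      rw [mul_pow, hE, Real.sq_sqrt (Real.exp_pos _).le]
      refine mul_le_mul_of_nonneg_left (Real.exp_le_exp.2 ?_) (sq_nonneg _)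
      exact mul_le_mul_of_nonneg_left (by linarith [ht.2]) (by positivity)
    simp only [z1, z2, norm_zero] at hN
    have h1 : ‖e₁ t‖ ^ 2 + ‖e₂ t‖ ^ 2 ≤ (ε * E) ^ 2 := by nlinarith [sq_nonneg ε]
    have hpos : 0 ≤ ε * E := by positivity
    constructor <;> nlinarith [norm_nonneg (e₁ t), norm_nonneg (e₂ t)]
  have e : (π t - ρ t) - (π₀ t + (dm t : ℂ) * δ₀ t) =
      (e₁ t + (dm t : ℂ) * e₂ t) - ((dm t : ℂ) * (s t / κ) + h t) := by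
    simp only [e₁, e₂, h]; ring
  rw [e]
  refine (norm_sub_le _ _).trans (le_trans (add_le_add ((norm_add_le _ _).trans
    (add_le_add hεE.1 (norm_ofReal_mul_le (hc.bdm t ht) hεE.2)))
    ((norm_add_le _ _).trans (add_le_add (norm_ofReal_mul_le (hc.bdm t ht) (hsb t ht)) (hhb t ht)))) ?_)
  rw [hε]
  have : B / ‖κ‖ ≤ C * (B / ‖κ‖) := le_mul_of_one_le_left (by positivity) hC
  have e2 : ((1 + C) * (20 * C ^ 3 * B * E) + 2 * C * B) / ‖κ‖ =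
      (20 * C ^ 3 * B / ‖κ‖ * E + C * (20 * C ^ 3 * B / ‖κ‖ * E)) + 2 * (C * (B / ‖κ‖)) := by ring
  rw [e2]; linarith

end

end Vale.Agent.P136
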