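import Mathlib
import Vale.Agent.P136.PressureEnergy

/-!
# P136: growing pressure and vertical shear modes, uniformly in a complex wave number
-/

open MeasureTheory Set Filter
open scoped Topology

namespace Vale.Agent.P136

noncomputable section

/-- The half difference of the compliances. -/
def alphaF (m l : ℝ → ℝ) (t : ℝ) : ℝ := (1 / m t - 1 / (l t + 2 * m t)) / 2

/-- The half sum of the compliances. -/
def gammaF (m l : ℝ → ℝ) (t : ℝ) : ℝ := (1 / m t + 1 / (l t + 2 * m t)) / 2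

/-- Regularity and positivity of a pair of one-variable moduli on an interval. -/
structure Layer (p q : ℝ) (m dm d2m d3m l dl : ℝ → ℝ) : Prop where
  hm : ∀ t, HasDerivAt m (dm t) t
  hdm : ∀ t, HasDerivAt dm (d2m t) t
  hd2m : ∀ t, HasDerivAt d2m (d3m t) t
  hd3m : Continuous d3m
  hl : ∀ t, HasDerivAt l (dl t) t
  hdl : Continuous dl
  mpos : ∀ t ∈ Icc p q, 0 < m t
  apos : ∀ t ∈ Icc p q, 0 < l t + 2 * m t

variable {p q : ℝ} {m dm d2m d3m l dl : ℝ → ℝ}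

theorem Layer.mc (h : Layer p q m dm d2m d3m l dl) : Continuous m :=
  continuous_iff_continuousAt.2 fun t => (h.hm t).continuousAt

theorem Layer.dmc (h : Layer p q m dm d2m d3m l dl) : Continuous dm :=
  continuous_iff_continuousAt.2 fun t => (h.hdm t).continuousAt

theorem Layer.d2mc (h : Layer p q m dm d2m d3m l dl) : Continuous d2m :=
  continuous_iff_continuousAt.2 fun t => (h.hd2m t).continuousAt

theorem Layer.lc (h : Layer p q m dm d2m d3m l dl) : Continuous l :=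
  continuous_iff_continuousAt.2 fun t => (h.hl t).continuousAt

theorem Layer.alpha_cont (h : Layer p q m dm d2m d3m l dl) : ContinuousOn (alphaF m l) (Icc p q) :=
  ((continuousOn_const.div h.mc.continuousOn fun t ht => (h.mpos t ht).ne').sub
    (continuousOn_const.div ((h.lc.add (continuous_const.mul h.mc)).continuousOn)
      fun t ht => (h.apos t ht).ne')).div_const 2

theorem Layer.gamma_cont (h : Layer p q m dm d2m d3m l dl) : ContinuousOn (gammaF m l) (Icc p q) :=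
  ((continuousOn_const.div h.mc.continuousOn fun t ht => (h.mpos t ht).ne').add
    (continuousOn_const.div ((h.lc.add (continuous_const.mul h.mc)).continuousOn)
      fun t ht => (h.apos t ht).ne')).div_const 2

theorem Layer.coeffs (h : Layer p q m dm d2m d3m l dl) :
    ∃ dα dγ C, Coeffs p q dm d2m d3m (alphaF m l) dα (gammaF m l) dγ C := by
  obtain ⟨u, hu⟩ : ∃ u : ℝ → ℝ, u = fun t => -dm t / (m t) ^ 2 := ⟨_, rfl⟩
  obtain ⟨v, hv⟩ : ∃ v : ℝ → ℝ, v = fun t => -(dl t + 2 * dm t) / (l t + 2 * m t) ^ 2 := ⟨_, rfl⟩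
  have hu' : ∀ t ∈ Icc p q, HasDerivAt (fun s => 1 / m s) (u t) t := fun t ht => by
    subst hu
    exact ((hasDerivAt_const t (1 : ℝ)).div (h.hm t) (h.mpos t ht).ne').congr_deriv (by ring)
  have hv' : ∀ t ∈ Icc p q, HasDerivAt (fun s => 1 / (l s + 2 * m s)) (v t) t := fun t ht => by
    subst hv
    exact ((hasDerivAt_const t (1 : ℝ)).div ((h.hl t).add ((h.hm t).const_mul 2))
      (h.apos t ht).ne').congr_deriv (by simp only [Pi.add_apply]; ring)
  have hdmc := h.dmc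
  have hmc := h.mc
  have hlc := h.lc
  have hdl := h.hdl
  have huc : ContinuousOn u (Icc p q) := by
    subst hu
    exact ContinuousOn.div (by fun_prop) (by fun_prop) fun t ht => pow_ne_zero 2 (h.mpos t ht).ne'
  have hvc : ContinuousOn v (Icc p q) := by
    subst hv
    exact ContinuousOn.div (by fun_prop) (by fun_prop) fun t ht => pow_ne_zero 2 (h.apos t ht).ne'
  obtain ⟨C₁, h1, b1⟩ := exists_bound_Icc (p := p) (q := q) hdmc.continuousOn
  obtain ⟨C₂, h2, b2⟩ := exists_bound_Icc (p := p) (q := q) h.d2mc.continuousOn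
  obtain ⟨C₃, h3, b3⟩ := exists_bound_Icc (p := p) (q := q) h.hd3m.continuousOn
  obtain ⟨C₄, h4, b4⟩ := exists_bound_Icc h.alpha_cont
  obtain ⟨C₅, h5, b5⟩ := exists_bound_Icc h.gamma_cont
  obtain ⟨C₆, h6, b6⟩ := exists_bound_Icc (f := fun t => (u t - v t) / 2) ((huc.sub hvc).div_const 2)
  obtain ⟨C₇, h7, b7⟩ := exists_bound_Icc (f := fun t => (u t + v t) / 2) ((huc.add hvc).div_const 2)
  refine ⟨fun t => (u t - v t) / 2, fun t => (u t + v t) / 2, 1 + C₁ + C₂ + C₃ + C₄ + C₅ + C₆ + C₇, ?_⟩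
  exact {
    one_le := by linarith
    bdm := fun t ht => (b1 t ht).trans (by linarith)
    bd2m := fun t ht => (b2 t ht).trans (by linarith)
    bd3m := fun t ht => (b3 t ht).trans (by linarith)
    bα := fun t ht => (b4 t ht).trans (by linarith)
    bdα := fun t ht => (b6 t ht).trans (by linarith)
    bγ := fun t ht => (b5 t ht).trans (by linarith)
    bdγ := fun t ht => (b7 t ht).trans (by linarith)
    hdm := fun t _ => h.hdm t
    hd2m := fun t _ => h.hd2m t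
    hα := fun t ht => ((hu' t ht).sub (hv' t ht)).div_const 2
    hγ := fun t ht => ((hu' t ht).add (hv' t ht)).div_const 2 }

/-- Two leading amplitudes which do not vanish together. -/
theorem exists_amplitudes (h : Layer p q m dm d2m d3m l dl) (hpq : p ≤ q) :
    ∃ A B : Fin 2 → ℝ → ℂ, (∀ k, AmpSys p q dm (alphaF m l) (gammaF m l) (A k) (B k)) ∧
      (∀ k, Continuous (A k) ∧ Continuous (B k)) ∧
      ∃ c, 0 < c ∧ ∀ t ∈ Icc p q, c ≤ ∑ k, ‖A k t + (dm t : ℂ) * B k t‖ ^ 2 := by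
  let M : ℝ → Fin 2 → Fin 2 → ℂ := fun t => ![![(dm t * gammaF m l t : ℝ), (-(dm t * alphaF m l t * dm t) : ℝ)],
    ![(alphaF m l t : ℝ), (-(gammaF m l t * dm t) : ℝ)]]
  have hα := h.alpha_cont
  have hγ := h.gamma_cont
  have hd := h.dmc.continuousOn (s := Icc p q)
  have hM : ∀ i j, ContinuousOn (fun t => M t i j) (Icc p q) := by
    intro i j
    fin_cases i <;> fin_cases j <;> simp only [M] <;> refine Complex.continuous_ofReal.comp_continuousOn ?_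
    · exact hd.mul hγ
    · exact ((hd.mul hα).mul hd).neg
    · exact hα
    · exact (hγ.mul hd).neg
  choose Y Y' hY hY' hY0 hYeq using fun k : Fin 2 =>
    exists_linear_solution hpq hM (fun i => if i = k then (1 : ℂ) else 0)
  have hA : ∀ k, AmpSys p q dm (alphaF m l) (gammaF m l) (Y k 0) (Y k 1) := fun k => by
    constructor <;> intro t ht
    · refine (hY k 0 t).congr_deriv ?_
      rw [hYeq k t ht 0]; simp [M, Fin.sum_univ_two]; ring
    · refine (hY k 1 t).congr_deriv ?_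
      rw [hYeq k t ht 1]; simp [M, Fin.sum_univ_two]; ring
  have hcont : ∀ k i, Continuous (Y k i) := fun k i =>
    continuous_iff_continuousAt.2 fun t => (hY k i t).continuousAt
  refine ⟨fun k => Y k 0, fun k => Y k 1, hA, fun k => ⟨hcont k 0, hcont k 1⟩, ?_⟩
  set W : ℝ → ℂ := fun t => Y 0 0 t * Y 1 1 t - Y 1 0 t * Y 0 1 t with hW
  have hW' : ∀ t ∈ Icc p q, HasDerivAt W 0 t := fun t ht => by
    refine (((hA 0).hπ t ht).mul ((hA 1).hδ t ht) |>.sub (((hA 1).hπ t ht).mul ((hA 0).hδ t ht))).congr_deriv ?_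
    ring
  have hW1 : ∀ t ∈ Icc p q, W t = 1 := by
    intro t ht
    have h0 := (convex_Icc p q).norm_image_sub_le_of_norm_hasDerivWithin_le (f := W) (C := 0)
      (fun s hs => (hW' s hs).hasDerivWithinAt) (fun s _ => by simp) (left_mem_Icc.2 hpq) ht
    simp only [zero_mul] at h0
    rw [norm_le_zero_iff, sub_eq_zero] at h0
    rw [h0]; simp [W, hY0]
  set f : ℝ → ℝ := fun t => ∑ k, ‖Y k 0 t + (dm t : ℂ) * Y k 1 t‖ ^ 2 with hf
  have hfc : Continuous f := continuous_finsetSum _ fun k _ =>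
    ((hcont k 0).add ((Complex.continuous_ofReal.comp h.dmc).mul (hcont k 1))).norm.pow 2
  obtain ⟨t₀, ht₀, hmin⟩ := isCompact_Icc.exists_isMinOn (nonempty_Icc.2 hpq) hfc.continuousOn
  refine ⟨f t₀, ?_, fun t ht => hmin ht⟩
  have hW0 := hW1 t₀ ht₀
  by_contra hle
  push Not at hle
  have hz : ∀ k, Y k 0 t₀ + (dm t₀ : ℂ) * Y k 1 t₀ = 0 := fun k => by
    have := (Finset.sum_eq_zero_iff_of_nonneg (fun k _ => sq_nonneg _)).1
      (le_antisymm hle (Finset.sum_nonneg fun k _ => sq_nonneg ‖Y k 0 t₀ + (dm t₀ : ℂ) * Y k 1 t₀‖))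
      k (Finset.mem_univ k)
    simpa using this
  have : W t₀ = 0 := by
    simp only [W]
    linear_combination Y 1 1 t₀ * hz 0 - Y 0 1 t₀ * hz 1
  rw [this] at hW0
  exact zero_ne_one hW0

/-- The state of the plane-strain system. -/
def planeM (m l : ℝ → ℝ) (κ : ℂ) (t : ℝ) : Fin 4 → Fin 4 → ℂ :=
  ![![0, κ, κ / (m t : ℂ), 0],
    ![-κ * (l t : ℂ) / ((l t + 2 * m t : ℝ) : ℂ), 0, 0, κ / ((l t + 2 * m t : ℝ) : ℂ)],
    ![κ * (((l t + 2 * m t) - l t ^ 2 / (l t + 2 * m t) : ℝ) : ℂ), 0, 0,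
      κ * (l t : ℂ) / ((l t + 2 * m t : ℝ) : ℂ)],
    ![0, 0, -κ, 0]]

theorem planeM_continuousOn (h : Layer p q m dm d2m d3m l dl) (κ : ℂ) (i j : Fin 4) :
    ContinuousOn (fun t => planeM m l κ t i j) (Icc p q) := by
  have hmC : ContinuousOn (fun t => (m t : ℂ)) (Icc p q) :=
    (Complex.continuous_ofReal.comp h.mc).continuousOn
  have hlC : ContinuousOn (fun t => (l t : ℂ)) (Icc p q) :=
    (Complex.continuous_ofReal.comp h.lc).continuousOn
  have haR : ContinuousOn (fun t => l t + 2 * m t) (Icc p q) :=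
    (h.lc.add (continuous_const.mul h.mc)).continuousOn
  have haC : ContinuousOn (fun t => ((l t + 2 * m t : ℝ) : ℂ)) (Icc p q) :=
    Complex.continuous_ofReal.comp_continuousOn haR
  have hm0 : ∀ t ∈ Icc p q, (m t : ℂ) ≠ 0 := fun t ht => Complex.ofReal_ne_zero.2 (h.mpos t ht).ne'
  have ha0 : ∀ t ∈ Icc p q, ((l t + 2 * m t : ℝ) : ℂ) ≠ 0 :=
    fun t ht => Complex.ofReal_ne_zero.2 (h.apos t ht).ne'
  have hb : ContinuousOn (fun t => κ * (((l t + 2 * m t) - l t ^ 2 / (l t + 2 * m t) : ℝ) : ℂ)) (Icc p q) :=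
    continuousOn_const.mul (Complex.continuous_ofReal.comp_continuousOn
      (haR.sub ((h.lc.continuousOn.pow 2).div haR fun t ht => (h.apos t ht).ne')))
  have h02 : ContinuousOn (fun t => κ / (m t : ℂ)) (Icc p q) := continuousOn_const.div hmC hm0
  have h10 : ContinuousOn (fun t => -κ * (l t : ℂ) / ((l t + 2 * m t : ℝ) : ℂ)) (Icc p q) :=
    (continuousOn_const.mul hlC).div haC ha0
  have h13 : ContinuousOn (fun t => κ / ((l t + 2 * m t : ℝ) : ℂ)) (Icc p q) :=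
    continuousOn_const.div haC ha0
  have h23 : ContinuousOn (fun t => κ * (l t : ℂ) / ((l t + 2 * m t : ℝ) : ℂ)) (Icc p q) :=
    (continuousOn_const.mul hlC).div haC ha0
  fin_cases i <;> fin_cases j
  exacts [continuousOn_const, continuousOn_const, h02, continuousOn_const,
    h10, continuousOn_const, continuousOn_const, h13,
    hb, continuousOn_const, continuousOn_const, h23,
    continuousOn_const, continuousOn_const, continuousOn_const, continuousOn_const]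

/-- The normalised `π`. -/
def piN (m : ℝ → ℝ) (κ : ℂ) (p : ℝ) (Y : Fin 4 → ℝ → ℂ) (t : ℝ) : ℂ :=
  Complex.exp (-κ * ((t - p : ℝ) : ℂ)) * (Y 2 t + Y 3 t + 2 * (m t : ℂ) * (Y 0 t + Y 1 t))

/-- The normalised `ρ`. -/
def rhoN (m : ℝ → ℝ) (κ : ℂ) (p : ℝ) (Y : Fin 4 → ℝ → ℂ) (t : ℝ) : ℂ :=
  Complex.exp (-κ * ((t - p : ℝ) : ℂ)) * (Y 2 t - Y 3 t + 2 * (m t : ℂ) * (Y 1 t - Y 0 t))

/-- The normalised `σ`. -/
def sigN (κ : ℂ) (p : ℝ) (Y : Fin 4 → ℝ → ℂ) (t : ℝ) : ℂ :=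
  Complex.exp (-κ * ((t - p : ℝ) : ℂ)) * (Y 0 t + Y 1 t)

/-- The normalised `δ`. -/
def delN (κ : ℂ) (p : ℝ) (Y : Fin 4 → ℝ → ℂ) (t : ℝ) : ℂ :=
  Complex.exp (-κ * ((t - p : ℝ) : ℂ)) * (Y 0 t - Y 1 t) / κ

variable {κ : ℂ} {Y Y' : Fin 4 → ℝ → ℂ}

theorem hasDerivAt_piN (h : Layer p q m dm d2m d3m l dl) (hY : ∀ i t, HasDerivAt (Y i) (Y' i t) t)
    {t : ℝ} (ht : t ∈ Icc p q) (he : ∀ i, Y' i t = ∑ j, planeM m l κ t i j * Y j t) :
    HasDerivAt (piN m κ p Y) (2 * (dm t : ℂ) * sigN κ p Y t) t := by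
  have hm0 : (m t : ℂ) ≠ 0 := Complex.ofReal_ne_zero.2 (h.mpos t ht).ne'
  have ha0 : ((l t : ℂ) + 2 * (m t : ℂ)) ≠ 0 := by exact_mod_cast (h.apos t ht).ne'
  refine ((hasDerivAt_expNeg κ p t).mul (((hY 2 t).add (hY 3 t)).add
    (((h.hm t).ofReal_comp.const_mul 2).mul ((hY 0 t).add (hY 1 t))))).congr_deriv ?_
  rw [he 0, he 1, he 2, he 3]
  simp [planeM, Fin.sum_univ_four, sigN]
  field_simp; ring

theorem hasDerivAt_rhoN (h : Layer p q m dm d2m d3m l dl) (hY : ∀ i t, HasDerivAt (Y i) (Y' i t) t)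
    (hκ : κ ≠ 0) {t : ℝ} (ht : t ∈ Icc p q) (he : ∀ i, Y' i t = ∑ j, planeM m l κ t i j * Y j t) :
    HasDerivAt (rhoN m κ p Y)
      (-2 * κ * rhoN m κ p Y t - 2 * κ * (dm t : ℂ) * delN κ p Y t) t := by
  have hm0 : (m t : ℂ) ≠ 0 := Complex.ofReal_ne_zero.2 (h.mpos t ht).ne'
  have ha0 : ((l t : ℂ) + 2 * (m t : ℂ)) ≠ 0 := by exact_mod_cast (h.apos t ht).ne'
  refine ((hasDerivAt_expNeg κ p t).mul (((hY 2 t).sub (hY 3 t)).add
    (((h.hm t).ofReal_comp.const_mul 2).mul ((hY 1 t).sub (hY 0 t))))).congr_deriv ?_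
  rw [he 0, he 1, he 2, he 3]
  simp [planeM, Fin.sum_univ_four, rhoN, delN]
  field_simp; ring

theorem hasDerivAt_delN (h : Layer p q m dm d2m d3m l dl) (hY : ∀ i t, HasDerivAt (Y i) (Y' i t) t)
    (hκ : κ ≠ 0) {t : ℝ} (ht : t ∈ Icc p q) (he : ∀ i, Y' i t = ∑ j, planeM m l κ t i j * Y j t) :
    HasDerivAt (delN κ p Y)
      ((alphaF m l t : ℂ) * piN m κ p Y t + (gammaF m l t : ℂ) * rhoN m κ p Y t) t := by
  have hm0 : (m t : ℂ) ≠ 0 := Complex.ofReal_ne_zero.2 (h.mpos t ht).ne'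
  have ha0 : ((l t : ℂ) + 2 * (m t : ℂ)) ≠ 0 := by exact_mod_cast (h.apos t ht).ne'
  refine (((hasDerivAt_expNeg κ p t).mul ((hY 0 t).sub (hY 1 t))).div_const κ).congr_deriv ?_
  rw [he 0, he 1]
  simp [planeM, Fin.sum_univ_four, piN, rhoN, alphaF, gammaF]
  obtain ⟨A, hA⟩ : ∃ A, (l t : ℂ) = A - 2 * (m t : ℂ) := ⟨_, eq_sub_of_add_eq rfl⟩
  rw [hA] at ha0 ⊢
  simp only [sub_add_cancel] at ha0 ⊢
  field_simp; ring

theorem hasDerivAt_sigN (h : Layer p q m dm d2m d3m l dl) (hY : ∀ i t, HasDerivAt (Y i) (Y' i t) t)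
    {t : ℝ} (ht : t ∈ Icc p q) (he : ∀ i, Y' i t = ∑ j, planeM m l κ t i j * Y j t) :
    HasDerivAt (sigN κ p Y) (-2 * κ * sigN κ p Y t +
      κ * ((gammaF m l t : ℂ) * piN m κ p Y t + (alphaF m l t : ℂ) * rhoN m κ p Y t)) t := by
  have hm0 : (m t : ℂ) ≠ 0 := Complex.ofReal_ne_zero.2 (h.mpos t ht).ne'
  have ha0 : ((l t : ℂ) + 2 * (m t : ℂ)) ≠ 0 := by exact_mod_cast (h.apos t ht).ne'
  refine ((hasDerivAt_expNeg κ p t).mul ((hY 0 t).add (hY 1 t))).congr_deriv ?_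
  rw [he 0, he 1]
  simp [planeM, Fin.sum_univ_four, piN, rhoN, sigN, alphaF, gammaF]
  obtain ⟨A, hA⟩ : ∃ A, (l t : ℂ) = A - 2 * (m t : ℂ) := ⟨_, eq_sub_of_add_eq rfl⟩
  rw [hA] at ha0 ⊢
  simp only [sub_add_cancel] at ha0 ⊢
  field_simp; ring

/-- The initial state. -/
def initY (m dm l : ℝ → ℝ) (κ : ℂ) (p : ℝ) (a b : ℂ) : Fin 4 → ℂ :=
  let r : ℂ := -(dm p : ℂ) * b
  let s : ℂ := ((gammaF m l p : ℂ) * a + (alphaF m l p : ℂ) * r) / 2
  ![(s + κ * b) / 2, (s - κ * b) / 2, (a + r) / 2 - (m p : ℂ) * (s - κ * b),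
    (a - r) / 2 - (m p : ℂ) * (s + κ * b)]

theorem initial_values (hκ : κ ≠ 0) (m dm l : ℝ → ℝ) (a b : ℂ)
    (hY0 : ∀ i, Y i p = initY m dm l κ p a b i) :
    piN m κ p Y p = a ∧ delN κ p Y p = b ∧ rhoN m κ p Y p = -(dm p : ℂ) * b ∧
      sigN κ p Y p = ((gammaF m l p : ℂ) * a + (alphaF m l p : ℂ) * (-(dm p : ℂ) * b)) / 2 := by
  refine ⟨?_, ?_, ?_, ?_⟩ <;>
    simp [piN, delN, rhoN, sigN, hY0, initY] <;> field_simp <;> ring

/-- Solutions of the plane-strain system following given leading amplitudes. -/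
theorem pressure_solution (h : Layer p q m dm d2m d3m l dl) (hpq : p ≤ q) {π₀ δ₀ : ℝ → ℂ}
    (h₀ : AmpSys p q dm (alphaF m l) (gammaF m l) π₀ δ₀) :
    ∃ B R₀, ∀ κ : ℂ, R₀ ≤ ‖κ‖ → 0 ≤ κ.re → ∃ Y Y' : Fin 4 → ℝ → ℂ,
      (∀ i t, HasDerivAt (Y i) (Y' i t) t) ∧ (∀ i, Continuous (Y' i)) ∧
      ∀ t ∈ Icc p q, (∀ i, Y' i t = ∑ j, planeM m l κ t i j * Y j t) ∧
        ‖Complex.exp (-κ * ((t - p : ℝ) : ℂ)) * (Y 3 t + 2 * (m t : ℂ) * Y 0 t) -
          (π₀ t + (dm t : ℂ) * δ₀ t) / 2‖ ≤ B / ‖κ‖ := by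
  obtain ⟨dα, dγ, C, hc⟩ := h.coeffs
  obtain ⟨B, hB, hlim⟩ := normSys_limit hc hpq h₀
  refine ⟨B, C ^ 2, fun κ hκ hκr => ?_⟩
  have hκ0 : κ ≠ 0 := by
    intro hz; rw [hz, norm_zero] at hκ; nlinarith [hc.one_le]
  obtain ⟨Y, Y', hY, hY', hY0, hYeq⟩ :=
    exists_linear_solution hpq (planeM_continuousOn h κ) (initY m dm l κ p (π₀ p) (δ₀ p))
  obtain ⟨i1, i2, i3, i4⟩ := initial_values hκ0 m dm l (π₀ p) (δ₀ p) hY0
  refine ⟨Y, Y', hY, hY', fun t ht => ⟨hYeq t ht, ?_⟩⟩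
  have hy : NormSys p q dm (alphaF m l) (gammaF m l) κ (piN m κ p Y) (delN κ p Y) (rhoN m κ p Y)
      (sigN κ p Y) :=
    { hπ := fun t ht => hasDerivAt_piN h hY ht (hYeq t ht)
      hδ := fun t ht => hasDerivAt_delN h hY hκ0 ht (hYeq t ht)
      hρ := fun t ht => hasDerivAt_rhoN h hY hκ0 ht (hYeq t ht)
      hσ := fun t ht => hasDerivAt_sigN h hY ht (hYeq t ht)
      hρ0 := by rw [i3, i2]
      hσ0 := by rw [i4, i1, i3] }
  have hb := hlim κ hκ hκr _ _ _ _ hy i1 i2 t ht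
  rw [show Complex.exp (-κ * ((t - p : ℝ) : ℂ)) * (Y 3 t + 2 * (m t : ℂ) * Y 0 t) -
      (π₀ t + (dm t : ℂ) * δ₀ t) / 2 =
        ((piN m κ p Y t - rhoN m κ p Y t) - (π₀ t + (dm t : ℂ) * δ₀ t)) / 2 by
    simp only [piN, rhoN]; ring, norm_div, Complex.norm_two]
  have : 0 ≤ B / ‖κ‖ := by positivity
  linarith [norm_nonneg ((piN m κ p Y t - rhoN m κ p Y t) - (π₀ t + (dm t : ℂ) * δ₀ t))]

end

end Vale.Agent.P136
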