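import Mathlib
import Vale.Agent.P136.LayeredShear
import Vale.Agent.P136.Pressure

/-!
# P136: the first Lamé modulus of a layered body is determined
-/

open MeasureTheory Set Filter
open scoped Topology

namespace Vale.Agent.P136

noncomputable section

variable {Ω : Set Space} {p q : ℝ}

/-- The dilatation profile of a plane-strain mode. -/
def dil (κ : ℂ) (Y Y' : Fin 4 → ℝ → ℂ) (t : ℝ) : ℂ := κ * Y 0 t + Y' 1 t

theorem plane_mode (hr : Range Ω p q) {l m m' : ℝ → ℝ} (hl : Continuous l) (hm : Continuous m)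
    (hm0 : ∀ t ∈ Icc p q, 0 < m t) (ha : ∀ t ∈ Icc p q, 0 < l t + 2 * m t)
    (hmm : ∀ t ∈ Icc p q, m' t = m t) {κ ε : ℂ} (hε : ε * ε = -1) {Y Y' : Fin 4 → ℝ → ℂ}
    (hY : ∀ i t, HasDerivAt (Y i) (Y' i t) t) (hY' : ∀ i, Continuous (Y' i))
    (he : ∀ t ∈ Icc p q, ∀ i, Y' i t = ∑ j, planeM m' l κ t i j * Y j t) :
    IsCWeak Ω (fun x => l (x 2)) (fun x => m (x 2))
      (modeField (ε * κ) ![Y 0, 0, fun t => ε * Y 1 t])
      (modeGrad (ε * κ) ![Y 0, 0, fun t => ε * Y 1 t] ![Y' 0, 0, fun t => ε * Y' 1 t]) := by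
  have hYc : ∀ i, Continuous (Y i) := fun i => continuous_iff_continuousAt.2 fun t => (hY i t).continuousAt
  have hmC : Continuous fun t => (m t : ℂ) := Complex.continuous_ofReal.comp hm
  have hlC : Continuous fun t => (l t : ℂ) := Complex.continuous_ofReal.comp hl
  have hV : ∀ i t, HasDerivAt ((![Y 0, 0, fun t => ε * Y 1 t] : Fin 3 → ℝ → ℂ) i)
      ((![Y' 0, 0, fun t => ε * Y' 1 t] : Fin 3 → ℝ → ℂ) i t) t := by
    intro i t
    fin_cases i
    · exact hY 0 t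
    · exact hasDerivAt_const t 0
    · exact (hY 1 t).const_mul ε
  have hV' : ∀ i, Continuous ((![Y' 0, 0, fun t => ε * Y' 1 t] : Fin 3 → ℝ → ℂ) i) := by
    intro i
    fin_cases i
    · exact hY' 0
    · exact continuous_zero
    · exact continuous_const.mul (hY' 1)
  have hD : Continuous (dil κ Y Y') := (continuous_const.mul (hYc 0)).add (hY' 1)
  have hS00 : Continuous fun t => ε * ((l t : ℂ) * dil κ Y Y' t + 2 * (m t : ℂ) * κ * Y 0 t) :=
    continuous_const.mul ((hlC.mul hD).add (((continuous_const.mul hmC).mul continuous_const).mul (hYc 0)))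
  have hS11 : Continuous fun t => ε * ((l t : ℂ) * dil κ Y Y' t) := continuous_const.mul (hlC.mul hD)
  refine mode_isCWeak hr.isOpen hr.bounded hl hm hV hV'
    ![![fun t => ε * ((l t : ℂ) * dil κ Y Y' t + 2 * (m t : ℂ) * κ * Y 0 t), 0, fun t => κ * Y 2 t],
      ![0, fun t => ε * ((l t : ℂ) * dil κ Y Y' t), 0],
      ![fun t => κ * Y 2 t, 0, fun t => ε * κ * Y 3 t]]
    ![fun t => κ * Y' 2 t, 0, fun t => ε * κ * Y' 3 t] ?_ ?_ ?_ ?_ ?_
  · intro i j
    fin_cases i <;> fin_cases j <;>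
      first
      | exact continuous_zero
      | exact hS00
      | exact hS11
      | exact continuous_const.mul (hYc 2)
      | exact continuous_const.mul (hYc 3)
  · intro i t
    fin_cases i
    · exact (hY 2 t).const_mul κ
    · exact hasDerivAt_const t 0
    · exact (hY 3 t).const_mul (ε * κ)
  · intro i
    fin_cases i
    · exact continuous_const.mul (hY' 2)
    · exact continuous_zero
    · exact continuous_const.mul (hY' 3)
  · intro x hx i j
    have hI := hr.Icc_of_mem hx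
    have h0 := he _ hI 0
    have h1 := he _ hI 1
    simp only [planeM, Fin.sum_univ_four, hmm _ hI] at h0 h1
    simp at h0 h1
    have hne : (m (x 2) : ℂ) ≠ 0 := Complex.ofReal_ne_zero.2 (hm0 _ hI).ne'
    have hna : ((l (x 2) : ℂ) + 2 * (m (x 2) : ℂ)) ≠ 0 := by exact_mod_cast (ha _ hI).ne'
    obtain ⟨A, hA⟩ : ∃ A, (l (x 2) : ℂ) = A - 2 * (m (x 2) : ℂ) := ⟨_, eq_sub_of_add_eq rfl⟩
    fin_cases i <;> fin_cases j <;> simp [prof, dil, Fin.sum_univ_three, h0, h1] <;>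
      (try (rw [hA] at hna ⊢; simp only [sub_add_cancel] at hna ⊢; field_simp)) <;>
      (try linear_combination (0 : ℂ) * hε) <;>
      first
      | linear_combination -(m (x 2) : ℂ) * κ * Y 1 (x 2) * hε
      | (field_simp; ring1)
      | (field_simp; linear_combination -(m (x 2) : ℂ) * κ * Y 1 (x 2) * hε)
      | linear_combination -(m (x 2) : ℂ) * Y 1 (x 2) * κ * hε
  · intro x hx i
    have hI := hr.Icc_of_mem hx
    have h1 := he _ hI 1
    have h2 := he _ hI 2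
    have h3 := he _ hI 3
    simp only [planeM, Fin.sum_univ_four, hmm _ hI] at h1 h2 h3
    simp at h1 h2 h3
    have hna : ((l (x 2) : ℂ) + 2 * (m (x 2) : ℂ)) ≠ 0 := by exact_mod_cast (ha _ hI).ne'
    obtain ⟨A, hA⟩ : ∃ A, (l (x 2) : ℂ) = A - 2 * (m (x 2) : ℂ) := ⟨_, eq_sub_of_add_eq rfl⟩
    fin_cases i <;> simp [dil, h1, h2, h3]
    · rw [hA] at hna ⊢
      simp only [sub_add_cancel] at hna ⊢
      field_simp
      linear_combination κ * ((A - 2 * (m (x 2) : ℂ)) * (Y 3 (x 2) + 2 * (m (x 2) : ℂ) * Y 0 (x 2)) +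
        2 * (m (x 2) : ℂ) * A * Y 0 (x 2)) * κ * hε

/-- The density of the product of two plane-strain modes. -/
theorem plane_dens (κ : ℂ) (Y Y' Z Z' : Fin 4 → ℝ → ℂ) (L L' M : ℝ) (x : Space) :
    cdens L M (modeGrad (Complex.I * κ) ![Y 0, 0, fun t => Complex.I * Y 1 t]
        ![Y' 0, 0, fun t => Complex.I * Y' 1 t] x)
      (modeGrad (-Complex.I * κ) ![Z 0, 0, fun t => -Complex.I * Z 1 t]
        ![Z' 0, 0, fun t => -Complex.I * Z' 1 t] x) -
    cdens L' M (modeGrad (Complex.I * κ) ![Y 0, 0, fun t => Complex.I * Y 1 t]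
        ![Y' 0, 0, fun t => Complex.I * Y' 1 t] x)
      (modeGrad (-Complex.I * κ) ![Z 0, 0, fun t => -Complex.I * Z 1 t]
        ![Z' 0, 0, fun t => -Complex.I * Z' 1 t] x) =
      ((L - L' : ℝ) : ℂ) * (dil κ Y Y' (x 2) * dil κ Z Z' (x 2)) := by
  have hE : Complex.exp (Complex.I * κ * (x 0 : ℂ)) * Complex.exp (-Complex.I * κ * (x 0 : ℂ)) = 1 := by
    rw [← Complex.exp_add]; ring_nf; exact Complex.exp_zero
  simp [cdens, modeGrad, prof, Fin.sum_univ_three, dil]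
  simp only [neg_mul] at hE
  linear_combination ((L : ℂ) - (L' : ℂ)) * (κ * Y 0 (x 2) + Y' 1 (x 2)) * (κ * Z 0 (x 2) + Z' 1 (x 2)) * hE -
    ((L : ℂ) - (L' : ℂ)) * (κ * Y 0 (x 2) + Y' 1 (x 2)) * (κ * Z 0 (x 2) + Z' 1 (x 2)) *
      Complex.exp (Complex.I * κ * (x 0 : ℂ)) * Complex.exp (-(Complex.I * κ * (x 0 : ℂ))) * Complex.I_sq

theorem dil_eq {l m : ℝ → ℝ} {κ : ℂ} {Y Y' : Fin 4 → ℝ → ℂ} {t : ℝ} (ha : 0 < l t + 2 * m t)
    (he : ∀ i, Y' i t = ∑ j, planeM m l κ t i j * Y j t) :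
    dil κ Y Y' t = κ * (Y 3 t + 2 * (m t : ℂ) * Y 0 t) / ((l t + 2 * m t : ℝ) : ℂ) := by
  have h1 := he 1
  simp only [planeM, Fin.sum_univ_four] at h1
  simp at h1
  have hna : ((l t : ℂ) + 2 * (m t : ℂ)) ≠ 0 := by exact_mod_cast ha.ne'
  obtain ⟨A, hA⟩ : ∃ A, (l t : ℂ) = A - 2 * (m t : ℂ) := ⟨_, eq_sub_of_add_eq rfl⟩
  rw [dil, h1]
  push_cast
  rw [hA] at hna ⊢
  simp only [sub_add_cancel] at hna ⊢
  field_simp
  ring

/-- The first moduli agree once the shear moduli do. -/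
theorem pressure_unique (hr : Range Ω p q) {l₁ l₂ m dm d2m d3m dl₁ dl₂ m₂ : ℝ → ℝ}
    (h₁ : Layer p q m dm d2m d3m l₁ dl₁) (h₂ : Layer p q m dm d2m d3m l₂ dl₂) (hm₂ : Continuous m₂)
    (hmm : ∀ t ∈ Icc p q, m t = m₂ t)
    (hg₁ : Good Ω (fun x => l₁ (x 2)) fun x => m (x 2))
    (hg₂ : Good Ω (fun x => l₂ (x 2)) fun x => m₂ (x 2))
    (hS : SameMap Ω (fun x => l₁ (x 2)) (fun x => m (x 2)) (fun x => l₂ (x 2)) fun x => m₂ (x 2)) :
    ∀ t ∈ Icc p q, l₁ t = l₂ t := by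
  obtain ⟨A₁, B₁, hA₁, hc₁, c₁, hc₁p, hlow₁⟩ := exists_amplitudes h₁ hr.lt.le
  obtain ⟨A₂, B₂, hA₂, hc₂, c₂, hc₂p, hlow₂⟩ := exists_amplitudes h₂ hr.lt.le
  choose K₁ R₁ hsol₁ using fun k => pressure_solution h₁ hr.lt.le (hA₁ k)
  choose K₂ R₂ hsol₂ using fun k => pressure_solution h₂ hr.lt.le (hA₂ k)
  obtain ⟨BA, hBA, hA⟩ := sliceArea_bounded hr.bounded
  obtain ⟨Bd, hBd, hdb⟩ := exists_bound_Icc (p := p) (q := q) (h₁.lc.sub h₂.lc).continuousOn
  set a : ℝ → ℝ := fun t => (l₁ t + 2 * m t) * (l₂ t + 2 * m t) with ha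
  have hac : Continuous a := (h₁.lc.add (continuous_const.mul h₁.mc)).mul (h₂.lc.add (continuous_const.mul h₁.mc))
  have hapos : ∀ t ∈ Icc p q, 0 < a t := fun t ht => mul_pos (h₁.apos t ht) (h₂.apos t ht)
  obtain ⟨Ca, hCa, hab⟩ := exists_bound_Icc (f := fun t => 1 / a t)
    (continuousOn_const.div hac.continuousOn fun t ht => (hapos t ht).ne')
  obtain ⟨Cb, hCb, habb⟩ := exists_bound_Icc (p := p) (q := q) hac.continuousOn
  set h : ℝ → ℝ := (Ioc p q).indicator fun t => sliceArea Ω t * (l₁ t - l₂ t) with hh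
  have hmeas : Measurable h :=
    ((sliceArea_measurable hr.isOpen).mul (h₁.lc.sub h₂.lc).measurable).indicator measurableSet_Ioc
  have hbound : ∀ t, |h t| ≤ BA * Bd := by
    intro t
    simp only [h, Set.indicator_apply]
    split_ifs with ht
    · rw [abs_mul]; exact mul_le_mul (hA t) (hdb t (Ioc_subset_Icc_self ht)) (abs_nonneg _) hBA
    · rw [abs_zero]; positivity
  set d₁ : Fin 2 → ℝ → ℂ := fun k t => (A₁ k t + (dm t : ℂ) * B₁ k t) / 2 with hd₁
  set d₂ : Fin 2 → ℝ → ℂ := fun k t => (A₂ k t + (dm t : ℂ) * B₂ k t) / 2 with hd₂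
  have hdc₁ : ∀ k, Continuous (d₁ k) := fun k =>
    ((hc₁ k).1.add ((Complex.continuous_ofReal.comp h₁.dmc).mul (hc₁ k).2)).div_const 2
  have hdc₂ : ∀ k, Continuous (d₂ k) := fun k =>
    ((hc₂ k).1.add ((Complex.continuous_ofReal.comp h₁.dmc).mul (hc₂ k).2)).div_const 2
  set φ : Fin 2 × Fin 2 → ℝ → ℂ := fun kj =>
    clampF p q fun t => d₁ kj.1 t * d₂ kj.2 t * ((1 / a t : ℝ) : ℂ) with hφ
  have hinvc : ContinuousOn (fun t => ((1 / a t : ℝ) : ℂ)) (Icc p q) :=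
    Complex.continuous_ofReal.comp_continuousOn
      (continuousOn_const.div hac.continuousOn fun t ht => (hapos t ht).ne')
  have hφc : ∀ kj, Continuous (φ kj) := fun kj =>
    continuous_clampF hr.lt.le (((hdc₁ kj.1).mul (hdc₂ kj.2)).continuousOn.mul hinvc)
  have hN : ∀ (d : Fin 2 → ℝ → ℂ), (∀ k, Continuous (d k)) →
      ∃ N, 0 ≤ N ∧ ∀ k, ∀ t ∈ Icc p q, ‖d k t‖ ≤ N := by
    intro d hd
    obtain ⟨N, hN, hb⟩ := exists_bound_Icc (p := p) (q := q) (f := fun t => ∑ k, ‖d k t‖)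
      (continuous_finsetSum _ fun k _ => (hd k).norm).continuousOn
    exact ⟨N, hN, fun k t ht => (Finset.single_le_sum (f := fun k => ‖d k t‖)
      (fun k _ => norm_nonneg _) (Finset.mem_univ k)).trans ((le_abs_self _).trans (hb t ht))⟩
  obtain ⟨N₁, hN₁, hn₁⟩ := hN d₁ hdc₁
  obtain ⟨N₂, hN₂, hn₂⟩ := hN d₂ hdc₂
  set B := ∑ k, (|K₁ k| + |K₂ k|) with hB
  have hB0 : 0 ≤ B := Finset.sum_nonneg fun k _ => by positivity
  have hlowφ : ∀ t ∈ Icc p q, c₁ * c₂ / (16 * (Cb + 1) ^ 2) ≤ ∑ kj, ‖φ kj t‖ ^ 2 := by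
    intro t ht
    have e : ∑ kj, ‖φ kj t‖ ^ 2 = (∑ k, ‖d₁ k t‖ ^ 2) * (∑ k, ‖d₂ k t‖ ^ 2) * (1 / a t) ^ 2 := by
      rw [Fintype.sum_prod_type, Finset.sum_mul_sum, Finset.sum_mul]
      refine Finset.sum_congr rfl fun i _ => ?_
      rw [Finset.sum_mul]
      refine Finset.sum_congr rfl fun j _ => ?_
      simp only [φ]
      rw [clampF_eq _ ht]
      simp only [norm_mul, Complex.norm_real, Real.norm_eq_abs, mul_pow, sq_abs]
    have e1 : ∑ k, ‖d₁ k t‖ ^ 2 = (∑ k, ‖A₁ k t + (dm t : ℂ) * B₁ k t‖ ^ 2) / 4 := by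
      rw [Finset.sum_div]
      exact Finset.sum_congr rfl fun k _ => by simp only [d₁, norm_div, Complex.norm_two, div_pow]; norm_num
    have e2 : ∑ k, ‖d₂ k t‖ ^ 2 = (∑ k, ‖A₂ k t + (dm t : ℂ) * B₂ k t‖ ^ 2) / 4 := by
      rw [Finset.sum_div]
      exact Finset.sum_congr rfl fun k _ => by simp only [d₂, norm_div, Complex.norm_two, div_pow]; norm_num
    rw [e, e1, e2]
    have hat := hapos t ht
    have hle : a t ≤ Cb + 1 := by linarith [le_abs_self (a t), habb t ht]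
    calc c₁ * c₂ / (16 * (Cb + 1) ^ 2) = c₁ / 4 * (c₂ / 4) * (1 / (Cb + 1)) ^ 2 := by field_simp; ring
      _ ≤ _ := mul_le_mul (mul_le_mul (by linarith [hlow₁ t ht]) (by linarith [hlow₂ t ht]) (by positivity)
            (by positivity)) (pow_le_pow_left₀ (by positivity) (one_div_le_one_div_of_le hat hle) 2)
          (by positivity) (by positivity)
  set ξ₀ := 1 + ∑ k, (|R₁ k| + |R₂ k|) with hξ
  have hae := laplace_vanish hr.lt hmeas hbound hφc (c := c₁ * c₂ / (16 * (Cb + 1) ^ 2)) (by positivity)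
    hlowφ (C := (Ca + 1) * (B * ((N₁ + N₂) + B) + (N₁ + N₂) * B)) (ξ₀ := ξ₀) (fun κ hκ kj => ?_)
  · intro t ht
    have hz := eq_zero_of_weighted_ae (w := sliceArea Ω) (f := fun t => l₁ t - l₂ t)
      (isOpenMap_eval (X := fun _ : Fin 3 => ℝ) 2 Ω hr.isOpen) (by rintro _ ⟨x, hx, rfl⟩; exact hr.mem x hx)
      (by rintro _ ⟨x, hx, rfl⟩; exact sliceArea_pos hr.isOpen hr.bounded hx) (h₁.lc.sub h₂.lc) (by
        filter_upwards [hae, ae_restrict_mem measurableSet_Ioc] with s hs hsm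
        simpa [h, hsm] using hs)
    exact closure_minimal (fun s hs => sub_eq_zero.1 (hz s hs)) (isClosed_eq h₁.lc h₂.lc) (hr.dense ht)
  obtain ⟨k, j⟩ := kj
  have hsum : 0 ≤ ∑ k, (|R₁ k| + |R₂ k|) := Finset.sum_nonneg fun k _ => by positivity
  have hk1 : R₁ k ≤ ξ₀ := by
    have := Finset.single_le_sum (f := fun k => |R₁ k| + |R₂ k|) (fun k _ => by positivity) (Finset.mem_univ k)
    linarith [le_abs_self (R₁ k), abs_nonneg (R₂ k)]
  have hk2 : R₂ j ≤ ξ₀ := by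
    have := Finset.single_le_sum (f := fun k => |R₁ k| + |R₂ k|) (fun k _ => by positivity) (Finset.mem_univ j)
    linarith [le_abs_self (R₂ j), abs_nonneg (R₁ j)]
  have hκn := hκ.trans (Complex.re_le_norm κ)
  have hκ1 : 1 ≤ ‖κ‖ := le_trans (by rw [hξ]; linarith) hκn
  have hκ0 : κ ≠ 0 := by intro hz; rw [hz, norm_zero] at hκ1; linarith
  obtain ⟨Y, Y', hY, hY', heY⟩ := hsol₁ k κ (hk1.trans hκn) (by linarith)
  obtain ⟨Z, Z', hZ, hZ', heZ⟩ := hsol₂ j κ (hk2.trans hκn) (by linarith)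
  have hid := cform_eq_of_sameMap hg₁ hg₂ hS
    (plane_mode hr h₁.lc h₁.mc h₁.mpos h₁.apos (fun _ _ => rfl) Complex.I_mul_I hY hY' fun t ht => (heY t ht).1)
    (plane_mode hr (m' := m) h₂.lc hm₂ (fun t ht => hmm t ht ▸ h₁.mpos t ht)
      (fun t ht => hmm t ht ▸ h₂.apos t ht) hmm (ε := -Complex.I) (by simp) hZ hZ' fun t ht => (heZ t ht).1)
  have hP : Continuous fun t => ((l₁ t - l₂ t : ℝ) : ℂ) * (dil κ Y Y' t * dil κ Z Z' t) :=
    (Complex.continuous_ofReal.comp (h₁.lc.sub h₂.lc)).mul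
      (((continuous_const.mul (continuous_iff_continuousAt.2 fun t => (hY 0 t).continuousAt)).add (hY' 1)).mul
        ((continuous_const.mul (continuous_iff_continuousAt.2 fun t => (hZ 0 t).continuousAt)).add (hZ' 1)))
  have hzero' : ∫ t in p..q, (sliceArea Ω t : ℂ) *
      (((l₁ t - l₂ t : ℝ) : ℂ) * (dil κ Y Y' t * dil κ Z Z' t)) = 0 := by
    rw [← integral_height hr.isOpen hr.bounded hr.mem hP, ← hid]
    refine setIntegral_congr_fun hr.isOpen.measurableSet fun x hx => ?_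
    simp only [← hmm _ (hr.Icc_of_mem hx)]
    exact (plane_dens κ Y Y' Z Z' _ _ _ x).symm
  set E : ℝ → ℂ := fun t => Complex.exp (-κ * ((t - p : ℝ) : ℂ)) with hE
  set S₀ : ℝ → ℂ := fun t => E t * (Y 3 t + 2 * (m t : ℂ) * Y 0 t) *
    (E t * (Z 3 t + 2 * (m t : ℂ) * Z 0 t)) * ((1 / a t : ℝ) : ℂ) with hS₀
  have hEc : Continuous E := by fun_prop
  have hYc : ∀ i, Continuous (Y i) := fun i => continuous_iff_continuousAt.2 fun t => (hY i t).continuousAt
  have hZc : ∀ i, Continuous (Z i) := fun i => continuous_iff_continuousAt.2 fun t => (hZ i t).continuousAt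
  have hmC : Continuous fun t => (2 : ℂ) * (m t : ℂ) :=
    continuous_const.mul (Complex.continuous_ofReal.comp h₁.mc)
  have hRc : Continuous (clampF p q S₀) := continuous_clampF hr.lt.le
    (((hEc.mul ((hYc 3).add (hmC.mul (hYc 0)))).mul
      (hEc.mul ((hZc 3).add (hmC.mul (hZc 0))))).continuousOn.mul hinvc)
  have hzero : ∫ t in p..q, (h t : ℂ) * clampF p q S₀ t * Complex.exp (2 * κ * t) = 0 := by
    have e : ∀ t ∈ Ioc p q, (h t : ℂ) * clampF p q S₀ t * Complex.exp (2 * κ * t) =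
        (Complex.exp (2 * κ * p) / (κ * κ)) * ((sliceArea Ω t : ℂ) *
          (((l₁ t - l₂ t : ℝ) : ℂ) * (dil κ Y Y' t * dil κ Z Z' t))) := by
      intro t ht
      have hI : t ∈ Icc p q := Ioc_subset_Icc_self ht
      have n1 : ((l₁ t + 2 * m t : ℝ) : ℂ) ≠ 0 := Complex.ofReal_ne_zero.2 (h₁.apos t hI).ne'
      have n2 : ((l₂ t + 2 * m t : ℝ) : ℂ) ≠ 0 := Complex.ofReal_ne_zero.2 (h₂.apos t hI).ne'
      have hEE : E t * E t * Complex.exp (2 * κ * t) = Complex.exp (2 * κ * p) := by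
        simp only [E, ← Complex.exp_add]; congr 1; push_cast; ring
      rw [clampF_eq _ hI, dil_eq (h₁.apos t hI) (heY t hI).1, dil_eq (h₂.apos t hI) (heZ t hI).1]
      simp only [h, Set.indicator_of_mem ht, S₀, a]
      rw [← hEE, Complex.ofReal_div, Complex.ofReal_mul (l₁ t + 2 * m t), Complex.ofReal_one]
      obtain ⟨a₁, ha₁⟩ : ∃ z, ((l₁ t + 2 * m t : ℝ) : ℂ) = z := ⟨_, rfl⟩
      obtain ⟨a₂, ha₂⟩ : ∃ z, ((l₂ t + 2 * m t : ℝ) : ℂ) = z := ⟨_, rfl⟩
      rw [ha₁] at n1 ⊢; rw [ha₂] at n2 ⊢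
      push_cast; field_simp
    rw [intervalIntegral.integral_congr_ae (Eventually.of_forall fun t ht => e t (by rwa [uIoc_of_le hr.lt.le] at ht)),
      intervalIntegral.integral_const_mul, hzero', mul_zero]
  refine approx_bound hr.lt.le hmeas hbound (hφc (k, j)) hRc (fun t ht => ?_) hzero
  rw [clampF_eq _ ht]
  simp only [φ, S₀, clampF_eq _ ht, ← sub_mul]
  rw [norm_mul, Complex.norm_real, Real.norm_eq_abs]
  have bk : ∀ {K : ℝ}, |K| ≤ B → K / ‖κ‖ ≤ B / ‖κ‖ := fun h =>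
    div_le_div_of_nonneg_right ((le_abs_self _).trans h) (norm_nonneg _)
  have s1 : |K₁ k| ≤ B := by
    have := Finset.single_le_sum (f := fun k => |K₁ k| + |K₂ k|) (fun k _ => by positivity) (Finset.mem_univ k)
    rw [hB]; linarith [abs_nonneg (K₂ k)]
  have s2 : |K₂ j| ≤ B := by
    have := Finset.single_le_sum (f := fun k => |K₁ k| + |K₂ k|) (fun k _ => by positivity) (Finset.mem_univ j)
    rw [hB]; linarith [abs_nonneg (K₁ j)]
  have pb := product_bound hκ1 ((heY t ht).2.trans (bk s1)) ((heZ t ht).2.trans (bk s2))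
    ((hn₁ k t ht).trans (by linarith : N₁ ≤ N₁ + N₂)) ((hn₂ j t ht).trans (by linarith : N₂ ≤ N₁ + N₂)) hB0
  refine (mul_le_mul pb ((hab t ht).trans (by linarith : Ca ≤ Ca + 1)) (abs_nonneg _) (by positivity)).trans
    (le_of_eq ?_)
  ring

end

end Vale.Agent.P136
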