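import Mathlib
import Vale.Agent.P136.LayeredPressure

/-!
# P136: global uniqueness for layered Lamé moduli
-/

open MeasureTheory Set
open Vale.Agent.P136

namespace Vale.Agent.P136.LayeredUniqueness

/-- On every bounded connected open subset of three-space, the quadratic form of the
displacement-to-traction map determines both Lamé moduli when they depend on the height only. -/
theorem layered_uniqueness (Ω : Set Space) (hΩ : IsOpen Ω) (hconn : IsConnected Ω) (hb : Bornology.IsBounded Ω)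
    (l₁ m₁ l₂ m₂ : ℝ → ℝ) (hl₁ : ContDiff ℝ 1 l₁) (hm₁ : ContDiff ℝ 3 m₁)
    (hl₂ : ContDiff ℝ 1 l₂) (hm₂ : ContDiff ℝ 3 m₂)
    (h₁ : ∀ x ∈ closure Ω, 0 < m₁ (x 2) ∧ 0 < 3 * l₁ (x 2) + 2 * m₁ (x 2))
    (h₂ : ∀ x ∈ closure Ω, 0 < m₂ (x 2) ∧ 0 < 3 * l₂ (x 2) + 2 * m₂ (x 2))
    (hS : SameMap Ω (fun x => l₁ (x 2)) (fun x => m₁ (x 2)) (fun x => l₂ (x 2))
      fun x => m₂ (x 2)) :
    ∀ x ∈ closure Ω, l₁ (x 2) = l₂ (x 2) ∧ m₁ (x 2) = m₂ (x 2) := by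
  obtain ⟨p, q, hr⟩ := exists_range hΩ hconn hb
  have d1 : ∀ {f : ℝ → ℝ}, ContDiff ℝ 1 f → ∀ t, HasDerivAt f (deriv f t) t := fun hf t =>
    (hf.differentiable one_ne_zero t).hasDerivAt
  have hd : ∀ {f : ℝ → ℝ} {n : ℕ}, ContDiff ℝ (n + 1 : ℕ) f → ContDiff ℝ (n : ℕ) (deriv f) := fun hf =>
    (contDiff_succ_iff_deriv.1 (by exact_mod_cast hf)).2.2
  have hm₁' : ContDiff ℝ 2 (deriv m₁) := hd (n := 2) hm₁
  have hm₁'' : ContDiff ℝ 1 (deriv (deriv m₁)) := hd (n := 1) hm₁'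
  have hm₂' : ContDiff ℝ 2 (deriv m₂) := hd (n := 2) hm₂
  have hm₂'' : ContDiff ℝ 1 (deriv (deriv m₂)) := hd (n := 1) hm₂'
  have hc₁ : Continuous l₁ := hl₁.continuous
  have hc₂ : Continuous l₂ := hl₂.continuous
  have hg₁ : Good Ω (fun x => l₁ (x 2)) fun x => m₁ (x 2) :=
    ⟨hΩ, hb, hc₁.comp (continuous_apply 2), hm₁.continuous.comp (continuous_apply 2),
      fun x hx => h₁ x (subset_closure hx)⟩
  have hg₂ : Good Ω (fun x => l₂ (x 2)) fun x => m₂ (x 2) :=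
    ⟨hΩ, hb, hc₂.comp (continuous_apply 2), hm₂.continuous.comp (continuous_apply 2),
      fun x hx => h₂ x (subset_closure hx)⟩
  have hp₁ : ∀ t ∈ Icc p q, 0 < m₁ t ∧ 0 < 3 * l₁ t + 2 * m₁ t := fun t ht => by
    obtain ⟨x, hx, rfl⟩ := hr.attained t ht; exact h₁ x hx
  have hp₂ : ∀ t ∈ Icc p q, 0 < m₂ t ∧ 0 < 3 * l₂ t + 2 * m₂ t := fun t ht => by
    obtain ⟨x, hx, rfl⟩ := hr.attained t ht; exact h₂ x hx
  have hm : ∀ t ∈ Icc p q, m₁ t = m₂ t :=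
    shear_unique hr hc₁ hc₂ (d1 (hm₁.of_le (by norm_num))) (d1 (hm₁'.of_le (by norm_num)))
      hm₁''.continuous (d1 (hm₂.of_le (by norm_num))) (d1 (hm₂'.of_le (by norm_num)))
      hm₂''.continuous (fun t ht => (hp₁ t ht).1) (fun t ht => (hp₂ t ht).1) hg₁ hg₂ hS
  have hL : ∀ {l : ℝ → ℝ}, ContDiff ℝ 1 l → (∀ t ∈ Icc p q, 0 < l t + 2 * m₁ t) →
      Layer p q m₁ (deriv m₁) (deriv (deriv m₁)) (deriv (deriv (deriv m₁))) l (deriv l) :=
    fun hl ha => ⟨d1 (hm₁.of_le (by norm_num)), d1 (hm₁'.of_le (by norm_num)), d1 hm₁'',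
      hm₁''.continuous_deriv le_rfl, d1 hl, hl.continuous_deriv le_rfl,
      fun t ht => (hp₁ t ht).1, ha⟩
  have hl : ∀ t ∈ Icc p q, l₁ t = l₂ t :=
    pressure_unique hr
      (hL hl₁ fun t ht => by nlinarith [(hp₁ t ht).1, (hp₁ t ht).2])
      (hL hl₂ fun t ht => by rw [hm t ht]; nlinarith [(hp₂ t ht).1, (hp₂ t ht).2])
      hm₂.continuous hm hg₁ hg₂ hS
  intro x hx
  have hI : x 2 ∈ Icc p q := by
    have hsub : Ω ⊆ (fun y : Space => y 2) ⁻¹' Icc p q := fun y hy => hr.Icc_of_mem hy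
    exact closure_minimal hsub (isClosed_Icc.preimage (continuous_apply 2)) hx
  exact ⟨hl _ hI, hm _ hI⟩

end Vale.Agent.P136.LayeredUniqueness
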